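import Vale.Agent.P231.Fm.Cont

/-!
# P231, block CV (contact volume), part a: pointwise algebra of `a ∧ w^N`

`w` is an even element (`w = dα` at a point), `a` a one-form (`a = α` at the point).
-/

set_option linter.unusedSectionVars false

open Module Vale.Agent.P231.Fm

namespace Vale.Agent.P231.CV

variable {E : Type*} [NormedAddCommGroup E] [NormedSpace ℝ E] [FiniteDimensional ℝ E]

/-- interior product of a power of an even element -/
theorem iprod_pow {w : Lam E} (hw : inv w = w) (v : E) (k : ℕ) :
    iprod v (w ^ (k + 1)) = ((k + 1 : ℕ) : ℝ) • (iprod v w * w ^ k) := by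
  induction k with
  | zero => simp
  | succ k ih =>
    have h : w ^ (k + 1) * iprod v w = iprod v w * w ^ (k + 1) := by
      refine mul_comm_of_even ?_ _
      rw [map_pow, hw]
    rw [pow_succ, iprod_mul, ih, map_pow, hw, smul_mul_assoc, mul_assoc, ← pow_succ, h]
    push_cast
    simp only [add_smul, one_smul]

/-- the product of a family -/
noncomputable def cprod {k : ℕ} (c : Fin k → Lam E) : Lam E := (List.ofFn c).prod

@[simp] theorem cprod_zero (c : Fin 0 → Lam E) : cprod c = 1 := by simp [cprod]

theorem cprod_succ {k : ℕ} (c : Fin (k + 1) → Lam E) :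
    cprod c = c 0 * cprod fun i => c i.succ := by
  simp [cprod, List.ofFn_succ]

theorem iprod_cprod {k : ℕ} {c : Fin k → Lam E} {v : E} (h : ∀ i, iprod v (c i) = 0) :
    iprod v (cprod c) = 0 := by
  induction k with
  | zero => simp
  | succ k ih =>
    rw [cprod_succ, iprod_mul, h 0, ih fun i => h i.succ, zero_mul, mul_zero, add_zero]

theorem pull_cprod {F : Type*} [NormedAddCommGroup F] [NormedSpace ℝ F] [FiniteDimensional ℝ F]
    (L : F →L[ℝ] E) {k : ℕ} (c : Fin k → Lam E) :
    pull L (cprod c) = cprod fun i => pull L (c i) := by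
  induction k with
  | zero => simp
  | succ k ih => rw [cprod_succ, cprod_succ, map_mul, ih]

theorem inv_iter_mul (k : ℕ) (v w : Lam E) :
    (inv : Lam E → Lam E)^[k] (v * w) = (inv : Lam E → Lam E)^[k] v * (inv : Lam E → Lam E)^[k] w := by
  induction k with
  | zero => rfl
  | succ k ih => rw [Function.iterate_succ_apply', Function.iterate_succ_apply',
      Function.iterate_succ_apply', ih, map_mul]

theorem inv_iter_odd (k : ℕ) {c : Lam E} (hc : inv c = -c) :
    (inv : Lam E → Lam E)^[k] c = ((-1 : ℝ) ^ k) • c := by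
  induction k with
  | zero => simp
  | succ k ih =>
    rw [Function.iterate_succ_apply', ih, map_smul, hc, pow_succ, mul_smul, neg_one_smul]

/-- the sign `(-1)^(k(k-1)/2)` -/
noncomputable def sgn : ℕ → ℝ
  | 0 => 1
  | k + 1 => (-1) ^ k * sgn k

theorem abs_sgn (k : ℕ) : |sgn k| = 1 := by
  induction k with
  | zero => simp [sgn]
  | succ k ih => rw [sgn, abs_mul, ih, abs_pow]; simp

/-- contracting the `k`-th power of an even element with `k` vectors -/
theorem cont_mul_pow {w : Lam E} (hw : inv w = w) {k : ℕ} (v : Fin k → E)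
    (h2 : ∀ i j, iprod (v i) (iprod (v j) w) = 0) (W : Lam E) (hW : ∀ i, iprod (v i) W = 0) :
    cont v (W * w ^ k) = ((k.factorial : ℝ) * sgn k) •
      ((inv : Lam E → Lam E)^[k] W * cprod fun i => iprod (v i) w) := by
  induction k generalizing W with
  | zero => simp [sgn]
  | succ k ih =>
    have h3 : iprod (v 0) (W * w ^ (k + 1)) =
        ((k + 1 : ℕ) : ℝ) • ((inv W * iprod (v 0) w) * w ^ k) := by
      rw [iprod_mul, hW, zero_mul, zero_add, iprod_pow hw, mul_smul_comm, mul_assoc]
    have h4 : ∀ i : Fin k, iprod (v i.succ) (inv W * iprod (v 0) w) = 0 := fun i => by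
      have h5 : iprod (v i.succ) (inv W) = 0 := by
        have := inv_iprod (v i.succ) W
        rw [hW, map_zero] at this
        rw [← neg_neg (iprod (v i.succ) (inv W)), ← this, neg_zero]
      rw [iprod_mul, h5, h2, zero_mul, mul_zero, add_zero]
    have hodd : inv (iprod (v 0) w) = -iprod (v 0) w := by rw [inv_iprod, hw]
    rw [cont_succ, h3, map_smul, ih (fun i => v i.succ) (fun i j => h2 _ _) _ h4, smul_smul,
      inv_iter_mul, inv_iter_odd k hodd, cprod_succ, ← Function.iterate_succ_apply, mul_smul_comm,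
      smul_mul_assoc, smul_smul, mul_assoc]
    congr 1
    · rw [sgn, Nat.factorial_succ]
      push_cast
      ring
    · rw [mul_assoc]

theorem cont_pow {w : Lam E} (hw : inv w = w) {k : ℕ} (v : Fin k → E)
    (h2 : ∀ i j, iprod (v i) (iprod (v j) w) = 0) :
    cont v (w ^ k) = ((k.factorial : ℝ) * sgn k) • cprod fun i => iprod (v i) w := by
  have h := cont_mul_pow hw v h2 1 fun i => by simp
  rw [one_mul] at h
  have h1 : (inv : Lam E → Lam E)^[k] 1 = 1 := by
    clear h2 h
    induction k with
    | zero => rfl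
    | succ k ih => rw [Function.iterate_succ_apply', ih (fun i => v i.succ), map_one]
  rw [h, h1, one_mul]

/-- evaluation of a product of one-forms on the dual family -/
theorem cont_cprod_dual {k : ℕ} (u : Fin k → E) (a : Fin k → E →L[ℝ] ℝ)
    (h1 : ∀ i, a i (u i) = 1) (h2 : ∀ i j, i < j → a j (u i) = 0) :
    cont u (cprod fun i => dx (a i)) = 1 := by
  induction k with
  | zero => simp
  | succ k ih =>
    rw [cont_succ, cprod_succ, iprod_dx_mul, h1, one_smul]
    have h3 : iprod (u 0) (cprod fun i : Fin k => dx (a i.succ)) = 0 :=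
      iprod_cprod fun i => by rw [iprod_dx, h2 _ _ (Fin.succ_pos i), map_zero]
    rw [h3, mul_zero, sub_zero]
    exact ih (fun i => u i.succ) (fun i => a i.succ) (fun i => h1 _)
      fun i j hij => h2 _ _ (Fin.succ_lt_succ_iff.2 hij)

/-- evaluation of a form on more vectors than the dimension -/
theorem evalForm_eq_zero {k : ℕ} (hk : finrank ℝ E < k) (w : Lam E) (v : Fin k → E) :
    evalForm w v = 0 := by
  refine AlternatingMap.map_linearDependent _ _ fun h => ?_
  have := h.fintype_card_le_finrank
  rw [Fintype.card_fin] at this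
  omega

/-- wedging `ι_R w^(N+1)` with a one-form in top degree -/
theorem evalForm_dx_mul_iprod {k : ℕ} (hk : finrank ℝ E ≤ k) (b : E →L[ℝ] ℝ) (R : E) (W : Lam E)
    (v : Fin k → E) : evalForm (dx b * iprod R W) v = b R * evalForm W v := by
  have h1 := evalForm_eq_zero (k := k + 1) (by omega) (dx b * W) (Fin.cons R v)
  have h2 : evalForm (dx b * W) (Fin.cons R v) = evalForm (iprod R (dx b * W)) v := by
    rw [evalForm_apply, cont_succ]
    rfl
  rw [h2, iprod_dx_mul] at h1
  have h3 : evalForm (b R • W - dx b * iprod R W) v = b R * evalForm W v -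
      evalForm (dx b * iprod R W) v := by
    rw [← evalL_apply, map_sub, map_smul]
    rfl
  rw [h3] at h1
  linarith

/-- the top degree form `db ∧ a ∧ w^N` in terms of `w^(N+1)` -/
theorem evalForm_dx_mul_mul_pow {w : Lam E} (hw : inv w = w) {k : ℕ} (hk : finrank ℝ E ≤ k)
    (b : E →L[ℝ] ℝ) (R : E) (N : ℕ) (v : Fin k → E) :
    evalForm (dx b * (iprod R w * w ^ N)) v = b R / (N + 1) * evalForm (w ^ (N + 1)) v := by
  have h1 := evalForm_dx_mul_iprod hk b R (w ^ (N + 1)) v
  rw [iprod_pow hw, mul_smul_comm] at h1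
  have h2 : evalForm (((N + 1 : ℕ) : ℝ) • (dx b * (iprod R w * w ^ N))) v =
      ((N + 1 : ℕ) : ℝ) * evalForm (dx b * (iprod R w * w ^ N)) v := by
    rw [← evalL_apply, map_smul]
    rfl
  rw [h2] at h1
  have h3 : ((N : ℝ) + 1) ≠ 0 := by positivity
  rw [div_mul_eq_mul_div, eq_div_iff h3, mul_comm, ← h1]
  push_cast
  ring

/-- absorbing a nilpotent summand -/
theorem mul_add_pow {a x y : Lam E} (hax : a * x = 0) (hxy : x * y = y * x) (N : ℕ) :
    a * (x + y) ^ N = a * y ^ N := by
  induction N with
  | zero => simp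
  | succ N ih =>
    have h : a * y ^ N * x = 0 := by
      have : Commute x y := hxy
      rw [mul_assoc, ← (this.pow_right N).eq, ← mul_assoc, hax, zero_mul]
    rw [pow_succ, ← mul_assoc, ih, mul_add, h, zero_add, mul_assoc, ← pow_succ]

end Vale.Agent.P231.CV
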