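import Vale.Agent.P231.H304.CVb
import Vale.Agent.P231.WG.Cyc
import Vale.Agent.P231.WG.FrameExp

/-!
# P231, block H: the contact form in the coordinates of the cycle, bilinear coefficient
-/

set_option maxSynthPendingDepth 3
set_option linter.unusedSectionVars false
set_option linter.unusedVariables false

open Bundle Manifold Set Filter Module Topology MeasureTheory
open scoped ContDiff Manifold Topology

namespace Vale.Agent.P231.CV

noncomputable section

open Vale.Agent.P234 Vale.Agent.P231 Vale.Agent.P231.Fm Vale.Agent.P231.W Vale.Agent.P231.H775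
  Vale.Agent.P231.WG

variable {E : Type*} [NormedAddCommGroup E] [NormedSpace ℝ E]
  {M : Type*} [MetricSpace M] [ChartedSpace E M]
  [RiemannianBundle (fun x : M => TangentSpace 𝓘(ℝ, E) x)]
  {e : ∀ x : M, TangentSpace 𝓘(ℝ, E) x → M}
  [FiniteDimensional ℝ E] [IsManifold 𝓘(ℝ, E) ∞ M]
  [IsContMDiffRiemannianBundle 𝓘(ℝ, E) ∞ E (fun x : M => TangentSpace 𝓘(ℝ, E) x)]
  {p : M} {R : ℝ}

theorem ipr_add_left (x : M) (a b c : E) : ip x (a + b) c = ip x a c + ip x b c :=
  inner_add_left (E := TangentSpace 𝓘(ℝ, E) x) (𝕜 := ℝ) a b c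

theorem ipr_add_right (x : M) (a b c : E) : ip x a (b + c) = ip x a b + ip x a c :=
  inner_add_right (E := TangentSpace 𝓘(ℝ, E) x) (𝕜 := ℝ) a b c

theorem ipr_smul_left (x : M) (r : ℝ) (a b : E) : ip x (r • a) b = r * ip x a b :=
  real_inner_smul_left (F := TangentSpace 𝓘(ℝ, E) x) a b r

theorem ipr_smul_right (x : M) (r : ℝ) (a b : E) : ip x a (r • b) = r * ip x a b :=
  real_inner_smul_right (F := TangentSpace 𝓘(ℝ, E) x) a b r

/-- the differential of `ef` in the direction `ζ` -/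
def dEf (e : ∀ x : M, TangentSpace 𝓘(ℝ, E) x → M) (p : M) (ξ ζ : Eu E) : E :=
  dE e p (fr p ξ) (fr p ζ)

/-- the coefficient of the contact form -/
def AA (X : Fr e p R) (ξ : Eu E) : Eu E →L[ℝ] Eu E →L[ℝ] ℝ :=
  LinearMap.toContinuousLinearMap
    { toFun := fun η => LinearMap.toContinuousLinearMap
        { toFun := fun ζ => ip (ef e p ξ) (X.B ξ η) (dEf e p ξ ζ)
          map_add' := fun ζ ζ' => by
            simp only [dEf]
            rw [map_add, dE_add]
            exact ipr_add_right _ _ _ _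
          map_smul' := fun c ζ => by
            simp only [dEf]
            rw [map_smul, dE_smul]
            exact ipr_smul_right _ _ _ _ }
      map_add' := fun η η' => ContinuousLinearMap.ext fun ζ => by
        change ip _ (X.B ξ (η + η')) _ = ip _ (X.B ξ η) _ + ip _ (X.B ξ η') _
        rw [map_add]
        exact ipr_add_left _ _ _ _
      map_smul' := fun c η => ContinuousLinearMap.ext fun ζ => by
        change ip _ (X.B ξ (c • η)) _ = c * ip _ (X.B ξ η) _
        rw [map_smul]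
        exact ipr_smul_left _ _ _ _ }

theorem AA_apply (X : Fr e p R) (ξ η ζ : Eu E) :
    AA X ξ η ζ = ip (ef e p ξ) (X.B ξ η) (dEf e p ξ ζ) := rfl

/-- `dEf` is smooth along `ef` -/
theorem smV_dEf (he : IsExp e) (p : M) (ξ ζ : Eu E) :
    SmV (fun ξ : Eu E => ef e p ξ) (fun ξ => (dEf e p ξ ζ : E)) ξ := by
  have h1 := smV_dE he (s₀ := ξ)
    (Eventually.of_forall fun s => smV_const p (contDiff_frT (E := E) p).contDiffAt)
    (Eventually.of_forall fun s => smV_const p (u := fun _ : Eu E => frT p ζ) contDiffAt_const)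
  exact h1

theorem smV_B (X : Fr e p R) {ξ : Eu E} (h : ‖ξ‖ < R) (η : Eu E) :
    SmV (fun ξ : Eu E => ef e p ξ) (fun ξ => (X.B ξ η : E)) ξ := by
  have h1 : ContDiffAt ℝ ∞ (fun ξ : Eu E => ((ξ, η) : Eu E × Eu E)) ξ :=
    contDiffAt_id.prodMk contDiffAt_const
  exact SmV.comp (h := fun ξ : Eu E => ((ξ, η) : Eu E × Eu E)) (X.sm ξ h η) h1

/-- the coefficient is smooth -/
theorem contDiffAt_AA (he : IsExp e) (X : Fr e p R) {ξ : Eu E} (h : ‖ξ‖ < R) :
    ContDiffAt ℝ ∞ (AA X) ξ := by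
  have h1 : ContDiffOn ℝ ∞ (AA X) (Metric.ball 0 R) := by
    refine contDiffOn_clm_apply.2 fun η => contDiffOn_clm_apply.2 fun ζ => ?_
    intro ξ' hξ'
    have h2 := (smV_B X (mem_ball_zero_iff.1 hξ') η).inner (smV_dEf he p ξ' ζ)
    exact h2.contDiffWithinAt
  exact h1.contDiffAt (Metric.isOpen_ball.mem_nhds (mem_ball_zero_iff.2 h))

/-- the chain rule for `ef` -/
theorem mfderiv_ef (he : IsExp e) (p : M) (ξ ζ : Eu E) :
    (mfderiv 𝓘(ℝ, Eu E) 𝓘(ℝ, E) (ef e p) ξ ζ : E) = dEf e p ξ ζ := by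
  have h1 : MDifferentiableAt 𝓘(ℝ, TangentSpace 𝓘(ℝ, E) p) 𝓘(ℝ, E) (e p) (frT p ξ) :=
    ((contMDiff_exp_fiber he p).contMDiffAt).mdifferentiableAt (by simp)
  have h3 : DifferentiableAt ℝ (frT (E := E) p) ξ := (contDiff_frT p).contDiffAt.differentiableAt
    (by simp)
  have h2 : MDifferentiableAt 𝓘(ℝ, Eu E) 𝓘(ℝ, TangentSpace 𝓘(ℝ, E) p) (frT (E := E) p) ξ :=
    h3.mdifferentiableAt
  have h4 := mfderiv_comp_apply ξ (I'' := 𝓘(ℝ, E)) (g := e p) (f := frT (E := E) p) h1 h2 ζ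
  have h5 : mfderiv 𝓘(ℝ, Eu E) 𝓘(ℝ, TangentSpace 𝓘(ℝ, E) p) (frT (E := E) p) ξ ζ = frT p ζ := by
    rw [mfderiv_eq_fderiv]
    let L : Eu E →ₗ[ℝ] TangentSpace 𝓘(ℝ, E) p :=
      { toFun := frT p
        map_add' := fun a b => (fr (E := E) p).map_add a b
        map_smul' := fun c a => (fr (E := E) p).map_smul c a }
    have h6 : fderiv ℝ (frT (E := E) p) ξ = L.toContinuousLinearMap :=
      L.toContinuousLinearMap.hasFDerivAt.fderiv
    rw [h6]
    rfl
  rw [h5] at h4
  exact h4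

end

end Vale.Agent.P231.CV
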