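import Vale.Agent.P231.H304.FirstVar

/-!
# P231, block H-c: the first variation formula along the geodesic flow, variable time
-/

set_option maxSynthPendingDepth 3
set_option linter.unusedSectionVars false
set_option linter.unusedVariables false

open Bundle Manifold Set Filter Module
open scoped ContDiff Manifold Topology

namespace Vale.Agent.P231.CV

noncomputable section

open Vale.Agent.P234 Vale.Agent.P231 Vale.Agent.P231.Fm Vale.Agent.P231.W

variable {E : Type*} [NormedAddCommGroup E] [NormedSpace ℝ E]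
  {M : Type*} [MetricSpace M] [ChartedSpace E M]
  [RiemannianBundle (fun x : M => TangentSpace 𝓘(ℝ, E) x)]
  {e : ∀ x : M, TangentSpace 𝓘(ℝ, E) x → M}
  [FiniteDimensional ℝ E] [IsManifold 𝓘(ℝ, E) ∞ M]
  [IsContMDiffRiemannianBundle 𝓘(ℝ, E) ∞ E (fun x : M => TangentSpace 𝓘(ℝ, E) x)]
  [CompactSpace M] [ConnectedSpace M] [IsRiemannianManifold 𝓘(ℝ, E) M]

/-- chain rule for a smooth map composed with a smooth map of vector spaces -/
theorem mfderiv_comp_lin {V W : Type} [NormedAddCommGroup V] [NormedSpace ℝ V]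
    [NormedAddCommGroup W] [NormedSpace ℝ W] {G : W → M} {j : V → W} {x : V} {L : V →L[ℝ] W}
    (hG : ContMDiffAt 𝓘(ℝ, W) 𝓘(ℝ, E) ∞ G (j x)) (hj : HasFDerivAt j L x) (ζ : V) :
    (mfderiv 𝓘(ℝ, V) 𝓘(ℝ, E) (fun y => G (j y)) x ζ : E) =
      mfderiv 𝓘(ℝ, W) 𝓘(ℝ, E) G (j x) (L ζ) := by
  have h1 := HasMFDerivAt.comp (I := 𝓘(ℝ, V)) (I' := 𝓘(ℝ, W)) (I'' := 𝓘(ℝ, E)) x
    (hG.mdifferentiableAt (by simp)).hasMFDerivAt hj.hasMFDerivAt
  have h2 := h1.mfderiv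
  exact congrArg (fun T : V →L[ℝ] E => T ζ) h2

/-- **first variation formula along the geodesic flow, variable time** -/
theorem first_var2 (F : Facts e) {V : Type} [NormedAddCommGroup V] [NormedSpace ℝ V]
    [FiniteDimensional ℝ V] {u : V → UT E M × ℝ} {x : V}
    (hu : ((dUT E M).prod (Dif.lin ℝ)).At u x) (ζ : V) :
    ip (gm e (u x)) (vel e (foot (u x).1) (vec' (u x).1) (u x).2)
        (mfderiv 𝓘(ℝ, V) 𝓘(ℝ, E) (fun y => gm e (u y)) x ζ) =
      ip (foot (u x).1) (vec' (u x).1) (mfderiv 𝓘(ℝ, V) 𝓘(ℝ, E) (fun y => foot (u y).1) x ζ) +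
        fderiv ℝ (fun y => (u y).2) x ζ := by
  have hu1 : (dUT E M).At (fun y => (u y).1) x := hu.1
  have hu2 : Sm (fun y => (u y).2) x := hu.2
  set t0 : ℝ := (u x).2 with ht0
  set c : ℝ := fderiv ℝ (fun y => (u y).2) x ζ with hc
  set G : V × ℝ → M := fun z => gm e ((u z.1).1, z.2) with hG
  have hGat : ContMDiffAt 𝓘(ℝ, V × ℝ) 𝓘(ℝ, E) ∞ G (x, t0) := by
    have h1 : (dUT E M).At (fun z : V × ℝ => (u z.1).1) (x, t0) :=
      (dUT E M).comp (u := fun y => (u y).1) (g := (Prod.fst : V × ℝ → V)) (x := (x, t0)) hu1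
        (Sm.of_contDiff contDiff_fst _)
    have h2 : ((dUT E M).prod (Dif.lin ℝ)).At (fun z : V × ℝ => ((u z.1).1, z.2)) (x, t0) :=
      ⟨h1, Sm.of_contDiff contDiff_snd _⟩
    exact Filter.Eventually.self_of_nhds (map_gm F h2)
  have hd2 : HasFDerivAt (fun y => (u y).2) (fderiv ℝ (fun y => (u y).2) x) x :=
    hu2.differentiableAt.hasFDerivAt
  have h1 := mfderiv_comp_lin (G := G) (j := fun y : V => (y, (u y).2)) (x := x) hGat
    ((hasFDerivAt_id x).prodMk hd2) ζ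
  have h2 := mfderiv_comp_lin (G := G) (j := fun y : V => (y, t0)) (x := x) hGat
    ((hasFDerivAt_id x).prodMk (hasFDerivAt_const t0 x)) ζ
  have h3 := mfderiv_comp_lin (G := G) (j := fun t : ℝ => (x, t)) (x := t0) hGat
    ((hasFDerivAt_const x t0).prodMk (hasFDerivAt_id t0)) (1 : ℝ)
  have h4 : (mfderiv 𝓘(ℝ, ℝ) 𝓘(ℝ, E) (fun t : ℝ => gm e ((u x).1, t)) t0 (1 : ℝ) : E) =
      vel e (foot (u x).1) (vec' (u x).1) t0 :=
    mfderiv_gam F.isExp (foot (u x).1) (vec' (u x).1) t0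
  have h5 : (mfderiv 𝓘(ℝ, V × ℝ) 𝓘(ℝ, E) G (x, t0) ((ζ, c) : V × ℝ) : E) =
      mfderiv 𝓘(ℝ, V × ℝ) 𝓘(ℝ, E) G (x, t0) ((ζ, 0) : V × ℝ) +
        c • mfderiv 𝓘(ℝ, V × ℝ) 𝓘(ℝ, E) G (x, t0) ((0, 1) : V × ℝ) := by
    have h6 : ∀ T : V × ℝ →L[ℝ] E, T (ζ, c) = T (ζ, 0) + c • T (0, 1) := by
      intro T
      rw [← map_smul, ← map_add]
      simp
    exact h6 _
  set X0 : E := mfderiv 𝓘(ℝ, V) 𝓘(ℝ, E) (fun y => gm e ((u y).1, t0)) x ζ with hX0
  have h6 : (mfderiv 𝓘(ℝ, V) 𝓘(ℝ, E) (fun y => gm e (u y)) x ζ : E) =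
      X0 + c • vel e (foot (u x).1) (vec' (u x).1) t0 := by
    refine h1.trans (h5.trans ?_)
    rw [← h4]
    exact congrArg₂ (fun a b : E => a + c • b) h2.symm h3.symm
  have h7 := first_var F hu1 t0 ζ
  have hn : ip (gm e ((u x).1, t0)) (vel e (foot (u x).1) (vec' (u x).1) t0)
      (vel e (foot (u x).1) (vec' (u x).1) t0) = 1 := by
    rw [ip_self]
    have h8 : nm (gm e ((u x).1, t0)) (vel e (foot (u x).1) (vec' (u x).1) t0 : E) = 1 :=
      (nm_vel F _ _ _).trans (nm_vec' (u x).1)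
    rw [h8, one_pow]
  have h9 : ∀ (p : M) (a b d : E), ip p a (b + c • d) = ip p a b + c * ip p a d := fun p a b d =>
    (inner_add_right (E := TangentSpace 𝓘(ℝ, E) p) a b (c • d)).trans
      (congrArg _ (real_inner_smul_right (F := TangentSpace 𝓘(ℝ, E) p) a d c))
  calc ip (gm e (u x)) (vel e (foot (u x).1) (vec' (u x).1) t0)
        (mfderiv 𝓘(ℝ, V) 𝓘(ℝ, E) (fun y => gm e (u y)) x ζ)
      = ip (gm e ((u x).1, t0)) (vel e (foot (u x).1) (vec' (u x).1) t0)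
        (X0 + c • vel e (foot (u x).1) (vec' (u x).1) t0) := ip_congr3 rfl rfl h6
    _ = _ := by
      rw [h9, hn, mul_one]
      exact congrArg (· + c) h7

end

end Vale.Agent.P231.CV
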