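import Vale.Agent.P231.H304.SmVd
import Vale.Agent.P231.H304.FirstVar2
import Vale.Agent.P231.WA.Inv

/-!
# P231, block H: the contact form of the unit tangent bundle
-/

set_option maxSynthPendingDepth 3
set_option linter.unusedSectionVars false
set_option linter.unusedVariables false

open Bundle Manifold Set Filter Module Topology
open scoped ContDiff Manifold Topology

namespace Vale.Agent.P231.CV

noncomputable section

open Vale.Agent.P234 Vale.Agent.P231 Vale.Agent.P231.Fm Vale.Agent.P231.W Vale.Agent.P231.H775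

variable {E : Type*} [NormedAddCommGroup E] [NormedSpace ℝ E]
  {M : Type*} [MetricSpace M] [ChartedSpace E M]
  [RiemannianBundle (fun x : M => TangentSpace 𝓘(ℝ, E) x)]
  {e : ∀ x : M, TangentSpace 𝓘(ℝ, E) x → M}
  [FiniteDimensional ℝ E] [IsManifold 𝓘(ℝ, E) ∞ M]
  [IsContMDiffRiemannianBundle 𝓘(ℝ, E) ∞ E (fun x : M => TangentSpace 𝓘(ℝ, E) x)]

section Cov

variable {V : Type} [NormedAddCommGroup V] [NormedSpace ℝ V] [FiniteDimensional ℝ V]

/-- raw differential -/
def dF (f : V → M) (x ζ : V) : E := mfderiv 𝓘(ℝ, V) 𝓘(ℝ, E) f x ζ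

theorem dF_add (f : V → M) (x ζ ζ' : V) : (dF f x (ζ + ζ') : E) = dF f x ζ + dF f x ζ' :=
  map_add (mfderiv 𝓘(ℝ, V) 𝓘(ℝ, E) f x) ζ ζ'

theorem dF_smul (f : V → M) (x : V) (c : ℝ) (ζ : V) : (dF f x (c • ζ) : E) = c • dF f x ζ :=
  map_smul (mfderiv 𝓘(ℝ, V) 𝓘(ℝ, E) f x) c ζ

theorem dF_congr {f g : V → M} {x : V} (h : f =ᶠ[𝓝 x] g) (ζ : V) :
    (dF f x ζ : E) = dF g x ζ := by
  have h1 := Filter.EventuallyEq.mfderiv_eq (I := 𝓘(ℝ, V)) (I' := 𝓘(ℝ, E)) h
  exact congrArg (fun T : V →L[ℝ] E => T ζ) h1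

theorem dF_comp {W : Type} [NormedAddCommGroup W] [NormedSpace ℝ W] {G : W → M} {j : V → W}
    {x : V} {L : V →L[ℝ] W} (hG : ContMDiffAt 𝓘(ℝ, W) 𝓘(ℝ, E) ∞ G (j x))
    (hj : HasFDerivAt j L x) (ζ : V) :
    (dF (fun y => G (j y)) x ζ : E) = mfderiv 𝓘(ℝ, W) 𝓘(ℝ, E) G (j x) (L ζ) := by
  have h1 := HasMFDerivAt.comp (I := 𝓘(ℝ, V)) (I' := 𝓘(ℝ, W)) (I'' := 𝓘(ℝ, E)) x
    (hG.mdifferentiableAt (by simp)).hasMFDerivAt hj.hasMFDerivAt
  have h2 := h1.mfderiv
  exact congrArg (fun T : V →L[ℝ] E => T ζ) h2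

/-- the covector of the contact form along a plot -/
def acov (u : V → UT E M) (x : V) : V →L[ℝ] ℝ :=
  LinearMap.toContinuousLinearMap
    { toFun := fun ζ => ip (foot (u x)) (vec' (u x)) (dF (fun y => foot (u y)) x ζ)
      map_add' := fun ζ ζ' => by
        rw [dF_add]
        exact inner_add_right (E := TangentSpace 𝓘(ℝ, E) (foot (u x))) (𝕜 := ℝ) _ _ _
      map_smul' := fun c ζ => by
        rw [dF_smul]
        exact real_inner_smul_right (F := TangentSpace 𝓘(ℝ, E) (foot (u x))) _ _ _ }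

theorem acov_apply (u : V → UT E M) (x ζ : V) : acov u x ζ =
    ip (foot (u x)) (vec' (u x)) (dF (fun y => foot (u y)) x ζ) := rfl

theorem at_foot {u : V → UT E M} {x : V} (h : (dUT E M).At u x) :
    ∀ᶠ y in 𝓝 x, ContMDiffAt 𝓘(ℝ, V) 𝓘(ℝ, E) ∞ (fun y => foot (u y)) y := by
  have h1 : ∀ᶠ y in 𝓝 x, SmV (fun y => (u y).1.1) (fun y => (u y).1.2) y := h
  filter_upwards [h1] with y hy using hy.base

theorem contDiffAt_acov {u : V → UT E M} {x : V} (h : (dUT E M).At u x) :
    ContDiffAt ℝ ∞ (acov u) x := by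
  obtain ⟨U, hU1, hU2, hU3⟩ := eventually_nhds_iff.1 ((dUT E M).open' h)
  have h1 : ContDiffOn ℝ ∞ (acov u) U := by
    refine contDiffOn_clm_apply.2 fun ζ => ?_
    intro y hy
    have h2 : (dUT E M).At u y := hU1 y hy
    have h3 : SmV (fun y => (u y).1.1) (fun y => (u y).1.2) y := Filter.Eventually.self_of_nhds h2
    have h4 := smV_mfderiv (at_foot h2) ζ
    have h5 := h3.inner h4
    exact h5.contDiffWithinAt
  exact h1.contDiffAt (hU2.mem_nhds hU3)

end Cov

variable (E M) in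
/-- **the contact form** of the unit tangent bundle -/
def alpha : Form (dUT E M) :=
  Form.mk' (fun u x => dx (acov u x))
    (fun {V} _ _ _ {u x} h => ((dx (E := V)).contDiff.contDiffAt).comp x (contDiffAt_acov h))
    (fun {V W} _ _ _ _ _ _ {u g x} h hg => by
      rw [pull_dx]
      congr 1
      refine ContinuousLinearMap.ext fun ζ => ?_
      have h1 := dF_comp (G := fun y => foot (u y)) (j := g) (at_foot h).self_of_nhds
        hg.differentiableAt.hasFDerivAt ζ
      change ip (foot (u (g x))) (vec' (u (g x))) (dF (fun y => foot (u (g y))) x ζ) =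
        ip (foot (u (g x))) (vec' (u (g x))) (dF (fun y => foot (u y)) (g x) (fderiv ℝ g x ζ))
      rw [h1]
      rfl)
    (fun {V} _ _ _ {u v x} h huv => by
      congr 1
      refine ContinuousLinearMap.ext fun ζ => ?_
      have h1 : u x = v x := huv.eq_of_nhds
      have h2 := dF_congr (E := E) (f := fun y => foot (u y)) (g := fun y => foot (v y))
        (huv.fun_comp foot) ζ
      change ip (foot (u x)) (vec' (u x)) (dF (fun y => foot (u y)) x ζ) =
        ip (foot (v x)) (vec' (v x)) (dF (fun y => foot (v y)) x ζ)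
      rw [h1, h2])

theorem alpha_val {V : Type} [NormedAddCommGroup V] [NormedSpace ℝ V] [FiniteDimensional ℝ V]
    {u : V → UT E M} {x : V} (h : (dUT E M).At u x) : (alpha E M).val u x = dx (acov u x) :=
  Form.mk'_val h

theorem isDeg_alpha : Form.IsDeg 1 (alpha E M) :=
  Form.ext_val fun V _ _ _ u x h => by
    rw [Form.part_val, alpha_val h, WA.prt_dx, if_pos rfl]

variable [CompactSpace M] [ConnectedSpace M] [IsRiemannianManifold 𝓘(ℝ, E) M]

/-- **the contact form along the geodesic flow** -/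
theorem pull_phi_alpha (F : Facts e) :
    Form.pull (phi F) (map_phi F) (alpha E M) = pr (alpha E M) + dt :=
  Form.ext_val fun V _ _ _ u x h => by
    have h1 : (dUT E M).At (fun y => (u y).1) x := h.1
    have h2 : (dUT E M).At (phi F ∘ u) x := map_phi F h
    have h3 : (pr (alpha E M)).val u x = dx (acov (fun y => (u y).1) x) :=
      (Form.pull_val (f := (Prod.fst : UT E M × ℝ → UT E M))
        (Dif.map_fst (D := dUT E M) (D' := Dif.lin ℝ)) _ h).trans (alpha_val h1)
    rw [Form.pull_val _ _ h, alpha_val h2, Form.add_val, h3, WA.dt_val h, ← map_add]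
    congr 1
    exact ContinuousLinearMap.ext fun ζ => first_var2 F h ζ

end

end Vale.Agent.P231.CV
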