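import Vale.Agent.P231.H304.CVa
import Vale.Agent.P231.Q.Phi

/-!
# P231, block CV (contact volume), part b: the fibre integrand
-/

set_option linter.unusedSectionVars false

open Module Set Filter Topology MeasureTheory
open scoped ContDiff

namespace Vale.Agent.P231.CV

open Vale.Agent.P231.Fm Vale.Agent.P231.Q

variable {E : Type*} [NormedAddCommGroup E] [NormedSpace ℝ E] [FiniteDimensional ℝ E]
variable {F : Type*} [NormedAddCommGroup F] [NormedSpace ℝ F] [FiniteDimensional ℝ F]
  [MeasurableSpace F] [BorelSpace F]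

/-! ### evaluation of slices -/

/-- contraction with a list of vectors -/
noncomputable def contLi : List E → Lam E → Lam E
  | [], w => w
  | v :: l, w => contLi l (iprod v w)

theorem cont_eq_contLi {k : ℕ} (v : Fin k → E) (w : Lam E) :
    cont v w = contLi (List.ofFn v) w := by
  induction k generalizing w with
  | zero => simp [contLi]
  | succ k ih => rw [cont_succ, List.ofFn_succ, contLi, ih]

theorem contLi_append (l l' : List E) (w : Lam E) :
    contLi (l ++ l') w = contLi l' (contLi l w) := by
  induction l generalizing w with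
  | nil => rfl
  | cons v l ih => rw [List.cons_append, contLi, contLi, ih]

theorem cont_append {k l : ℕ} (v : Fin k → E) (u : Fin l → E) (w : Lam E) :
    cont (Fin.append v u) w = cont u (cont v w) := by
  rw [cont_eq_contLi, cont_eq_contLi, cont_eq_contLi, List.ofFn_fin_append, contLi_append]

theorem evalForm_slice {k l : ℕ} (v : Fin k → F) (w : Lam (E × F)) (u : Fin l → E) :
    evalForm (slice v w) u =
      evalForm w (Fin.append (vert v) fun i => (ContinuousLinearMap.inl ℝ E F) (u i)) := by
  rw [evalForm_apply, slice_apply, pull_cont, aug_pull, evalForm_apply, cont_append]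

/-! ### products of one-forms -/

theorem evalForm_cprod {k : ℕ} (c : Fin k → E →L[ℝ] ℝ) (u : Fin k → E) :
    evalForm (cprod fun i => dx (c i)) u = (Matrix.of fun i j => c j (u i)).det := by
  let L : E →L[ℝ] (Fin k → ℝ) := ContinuousLinearMap.pi c
  let W : Lam (Fin k → ℝ) := cprod fun i => dx (ContinuousLinearMap.proj i)
  have h1 : (cprod fun i => dx (c i)) = pull L W := by
    rw [pull_cprod]
    congr 1
    funext i
    rw [pull_dx]
    congr 1
  let b := Pi.basisFun ℝ (Fin k)
  have h2 : evalForm W b = 1 := by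
    rw [evalForm_apply, cont_cprod_dual]
    · exact map_one _
    · intro i
      simp [b]
    · intro i j hij
      simp [b, hij.ne']
  have h3 := (evalForm W : (Fin k → ℝ) [⋀^Fin k]→ₗ[ℝ] ℝ).eq_smul_basis_det b
  rw [h1, evalForm_pull, h3, h2, one_smul, Pi.basisFun_det]
  rfl

/-! ### bilinear one-forms on a product -/

/-- the form `(x, y) ↦ A(x) y` (a one-form on the base depending linearly on the fibre) -/
noncomputable def con (A : E → F →L[ℝ] E →L[ℝ] ℝ) (z : E × F) : Lam (E × F) :=
  pf (dx (A z.1 z.2))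

variable {A : E → F →L[ℝ] E →L[ℝ] ℝ}

theorem contDiffAt_con {n : WithTop ℕ∞} {z : E × F} (hA : ContDiffAt ℝ n A z.1) :
    ContDiffAt ℝ n (con A) z := by
  have h1 : ContDiffAt ℝ n (fun z : E × F => A z.1 z.2) z :=
    (hA.comp z contDiffAt_fst).clm_apply contDiffAt_snd
  have h2 : ContDiffAt ℝ n (fun z : E × F =>
      (pullL (ContinuousLinearMap.fst ℝ E F) ∘L dx) (A z.1 z.2)) z :=
    ((pullL (ContinuousLinearMap.fst ℝ E F) ∘L dx).contDiff.contDiffAt).comp z h1
  exact h2

theorem inv_con (z : E × F) : inv (con A z) = -con A z := by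
  rw [con, pf, ← pull_inv, inv_dx, map_neg]

theorem iprod_con (v : F) (z : E × F) : iprod ((0, v) : E × F) (con A z) = 0 :=
  iprod_vert_pf v _

theorem inv_extd_con {z : E × F} (hA : DifferentiableAt ℝ (con A) z) :
    inv (extd (con A) z) = extd (con A) z := by
  have h1 := extd_inv hA
  have h2 : (fun y => inv (con A y)) = fun y => -con A y := by
    funext y
    exact inv_con y
  rw [h2, extd_neg] at h1
  exact (neg_injective h1).symm

theorem fderiv_con {z : E × F} (hA : DifferentiableAt ℝ (con A) z) (v : F) :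
    fderiv ℝ (con A) z (0, v) = pf (dx (A z.1 v)) := by
  let T : F →L[ℝ] Lam (E × F) := (pullL (ContinuousLinearMap.fst ℝ E F) ∘L dx) ∘L A z.1
  have h1 : HasFDerivAt (fun y : F => con A (z.1, y)) (fderiv ℝ (con A) z ∘L
      ContinuousLinearMap.inr ℝ E F) z.2 :=
    HasFDerivAt.comp (g := con A) z.2 (f := fun y : F => (z.1, y)) hA.hasFDerivAt
      (hasFDerivAt_prodMk_right z.1 z.2)
  have h2 : HasFDerivAt (fun y : F => con A (z.1, y)) T z.2 := T.hasFDerivAt
  have h3 := h1.unique h2
  exact DFunLike.congr_fun h3 v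

theorem iprod_extd_con {z : E × F} (hA : DifferentiableAt ℝ (con A) z) (v : F) :
    iprod ((0, v) : E × F) (extd (con A) z) = pf (dx (A z.1 v)) := by
  have h1 := iprod_extd hA ((0, v) : E × F)
  have h2 : (fun y => iprod ((0, v) : E × F) (con A y)) = fun _ => 0 := by
    funext y
    exact iprod_con v y
  rw [h2, extd_const, add_zero, fderiv_con hA] at h1
  exact h1

/-- evaluation of the top power of the exterior derivative -/
theorem evalForm_slice_pow {z : E × F} (hA : DifferentiableAt ℝ (con A) z) {k : ℕ}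
    (v : Fin k → F) (u : Fin k → E) :
    evalForm (slice v (extd (con A) z ^ k)) u =
      (k.factorial : ℝ) * sgn k * (Matrix.of fun i j => A z.1 (v j) (u i)).det := by
  have h1 : ∀ i j, iprod (vert (E := E) v i) (iprod (vert v j) (extd (con A) z)) = 0 := by
    intro i j
    have h2 : iprod (vert (E := E) v j) (extd (con A) z) = pf (dx (A z.1 (v j))) :=
      iprod_extd_con hA (v j)
    rw [h2]
    exact iprod_vert_pf _ _
  rw [slice_apply, cont_pow (inv_extd_con hA) (vert v) h1, map_smul, pull_cprod]
  have h3 : (fun i => pull (ContinuousLinearMap.inl ℝ E F)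
      (iprod (vert (E := E) v i) (extd (con A) z))) = fun i => dx (A z.1 (v i)) := by
    funext i
    have h2 : iprod (vert (E := E) v i) (extd (con A) z) = pf (dx (A z.1 (v i))) :=
      iprod_extd_con hA (v i)
    rw [h2, pull_inl_pf]
  have h4 : evalForm (((k.factorial : ℝ) * sgn k) • (cprod fun i => dx (A z.1 (v i)))) u =
      ((k.factorial : ℝ) * sgn k) * evalForm (cprod fun i => dx (A z.1 (v i))) u := by
    rw [← evalL_apply, map_smul]
    rfl
  rw [h3, h4, evalForm_cprod]

/-- **the fibre integrand of the contact volume** -/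
theorem evalForm_slice_main {N : ℕ} (hE : finrank ℝ E = N + 1) (hF : finrank ℝ F = N + 1)
    {x : E} {y : F} (hA : DifferentiableAt ℝ (con A) (x, y)) (c : ℝ) (a : F →L[ℝ] ℝ)
    (v : Fin (N + 1) → F) (u : Fin (N + 1) → E) :
    evalForm (slice v (ps (dx a) * (c • (con A (x, y) * extd (con A) (x, y) ^ N)))) u =
      c * a y * ((N.factorial : ℝ) * sgn (N + 1) *
        (Matrix.of fun i j => A x (v j) (u i)).det) := by
  have h1 : con A (x, y) = iprod ((0, y) : E × F) (extd (con A) (x, y)) :=
    (iprod_extd_con hA y).symm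
  have h2 : (ps (dx a) : Lam (E × F)) = dx (a.comp (ContinuousLinearMap.snd ℝ E F)) :=
    pull_dx _ _
  have hfin : finrank ℝ (E × F) ≤ (N + 1) + (N + 1) := by
    rw [finrank_prod, hE, hF]
  have h3 := evalForm_dx_mul_mul_pow (inv_extd_con hA) hfin
    (a.comp (ContinuousLinearMap.snd ℝ E F)) ((0, y) : E × F) N
    (Fin.append (vert v) fun i => (ContinuousLinearMap.inl ℝ E F) (u i))
  rw [← evalForm_slice, ← evalForm_slice, evalForm_slice_pow hA v u, ← h1, ← h2] at h3
  have h4 : evalForm (slice v (ps (dx a) * (c • (con A (x, y) * extd (con A) (x, y) ^ N)))) u =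
      c * evalForm (slice v (ps (dx a) * (con A (x, y) * extd (con A) (x, y) ^ N))) u := by
    rw [mul_smul_comm, map_smul, ← evalL_apply, map_smul]
    rfl
  rw [h4, h3]
  have h5 : (a.comp (ContinuousLinearMap.snd ℝ E F)) ((0, y) : E × F) = a y := rfl
  have h6 : ((N : ℝ) + 1) ≠ 0 := by positivity
  rw [h5, Nat.factorial_succ]
  push_cast
  field_simp

/-- rescaling a one-form -/
theorem smul_mul_extd_pow {V : Type*} [NormedAddCommGroup V] [NormedSpace ℝ V]
    [FiniteDimensional ℝ V] {w : V → Lam V} {c : V → ℝ} {z : V}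
    (hw : DifferentiableAt ℝ w z) (hc : DifferentiableAt ℝ c z)
    (hodd : ∀ᶠ y in 𝓝 z, inv (w y) = -w y) (N : ℕ) :
    (c z • w z) * extd (fun y => c y • w y) z ^ N =
      c z ^ (N + 1) • (w z * extd w z ^ N) := by
  have h0 : inv (w z) = -w z := hodd.self_of_nhds
  have h1 : inv (extd w z) = extd w z := by
    have h1 := extd_inv hw
    rw [extd_congr hodd, extd_neg] at h1
    exact (neg_injective h1).symm
  rw [extd_smul hc hw]
  have h2 : (c z • w z) * (dx (fderiv ℝ c z) * w z) = 0 := by
    have h3 : w z * (dx (fderiv ℝ c z) * w z) = 0 := by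
      rw [dx_mul, h0, neg_mul, mul_neg, ← mul_assoc, mul_self_of_odd h0, zero_mul, neg_zero]
    rw [smul_mul_assoc, h3, smul_zero]
  have h4 : (dx (fderiv ℝ c z) * w z) * (c z • extd w z) =
      (c z • extd w z) * (dx (fderiv ℝ c z) * w z) := by
    rw [mul_smul_comm, smul_mul_assoc, mul_comm_of_even h1]
  rw [mul_add_pow h2 h4, smul_pow, smul_mul_assoc, mul_smul_comm, smul_smul, pow_succ']

end Vale.Agent.P231.CV
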