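import Vale.Agent.P231.H304.AA

/-!
# P231, block H: the determinant of the contact form is the Jacobian, up to a constant sign
-/

set_option maxSynthPendingDepth 3
set_option linter.unusedSectionVars false
set_option linter.unusedVariables false

open Bundle Manifold Set Filter Module Topology MeasureTheory
open scoped ContDiff Manifold Topology

namespace Vale.Agent.P231.CV

noncomputable section

open Vale.Agent.P234 Vale.Agent.P231 Vale.Agent.P231.Fm Vale.Agent.P231.W Vale.Agent.P231.WG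
open Vale.Agent.P231.H775

variable {E : Type*} [NormedAddCommGroup E] [NormedSpace ℝ E]
  {M : Type*} [MetricSpace M] [ChartedSpace E M]
  [RiemannianBundle (fun x : M => TangentSpace 𝓘(ℝ, E) x)]
  {e : ∀ x : M, TangentSpace 𝓘(ℝ, E) x → M}
  [FiniteDimensional ℝ E] [IsManifold 𝓘(ℝ, E) ∞ M]
  [IsContMDiffRiemannianBundle 𝓘(ℝ, E) ∞ E (fun x : M => TangentSpace 𝓘(ℝ, E) x)]

variable {p : M} {R : ℝ} {k : ℕ}

/-- the frame in orthonormal coordinates at both ends -/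
def tt (X : Fr e p R) (ξ : Eu E) : Eu E →ₗ[ℝ] Eu E :=
  (((fr (ef e p ξ)).symm : E ≃L[ℝ] Eu E) : E →ₗ[ℝ] Eu E) ∘ₗ (X.B ξ : Eu E →ₗ[ℝ] E)

theorem fr_tt (X : Fr e p R) (ξ η : Eu E) : fr (ef e p ξ) (tt X ξ η) = X.B ξ η :=
  (fr (ef e p ξ)).apply_symm_apply _

theorem tt_injective (X : Fr e p R) {ξ : Eu E} (h : ‖ξ‖ < R) : Function.Injective (tt X ξ) := by
  intro a b hab
  refine X.inj ξ h ?_
  rw [← fr_tt, ← fr_tt, hab]

theorem exists_T (X : Fr e p R) {ξ : Eu E} (h : ‖ξ‖ < R) :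
    ∃ T : Eu E ≃L[ℝ] Eu E, ∀ η, fr (ef e p ξ) (T η) = X.B ξ η :=
  ⟨(LinearEquiv.ofInjectiveEndo _ (tt_injective X h)).toContinuousLinearEquiv, fun η =>
    fr_tt X ξ η⟩

theorem norm_T (X : Fr e p R) {ξ : Eu E} (T : Eu E ≃L[ℝ] Eu E)
    (hT : ∀ η, fr (ef e p ξ) (T η) = X.B ξ η) (η : Eu E) : ‖T η‖ = X.nr (ξ, η) := by
  rw [Fr.nr, ← hT η, nm_fr]

/-- the differential of the exponential map in orthonormal coordinates at both ends -/
def ss (e : ∀ x : M, TangentSpace 𝓘(ℝ, E) x → M) (p : M) (ξ : Eu E) : Eu E →ₗ[ℝ] Eu E :=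
  (((fr (ef e p ξ)).symm : E ≃L[ℝ] Eu E) : E →ₗ[ℝ] Eu E) ∘ₗ dEl e p (fr p ξ) ∘ₗ
    ((fr p : Eu E ≃L[ℝ] E) : Eu E →ₗ[ℝ] E)

theorem fr_ss (p : M) (ξ ζ : Eu E) :
    fr (ef e p ξ) (ss e p ξ ζ) = dEf e p ξ ζ :=
  (fr (ef e p ξ)).apply_symm_apply _

theorem abs_det_ss (p : M) (ξ : Eu E) : |LinearMap.det (ss e p ξ)| = jac e p (fr p ξ) := by
  have hg : gam e p (fr p ξ) 1 = ef e p ξ := by
    have h1 : ((1 : ℝ) • (fr p ξ : E)) = fr p ξ := one_smul ℝ _
    exact congrArg (e p) h1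
  unfold jac
  rw [hg]
  congr 1
  rw [← LinearMap.det_toMatrix (EuclideanSpace.basisFun (Fin (finrank ℝ E)) ℝ).toBasis]
  congr 1
  ext i j
  rw [LinearMap.toMatrix_apply]
  simp only [OrthonormalBasis.coe_toBasis, EuclideanSpace.basisFun_apply,
    OrthonormalBasis.coe_toBasis_repr_apply, Matrix.of_apply]
  have h2 := fr_ss (e := e) p ξ (EuclideanSpace.single j 1)
  rw [dEf] at h2
  rw [EuclideanSpace.basisFun_repr, ← h2, ip_fr, EuclideanSpace.inner_single_left]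
  simp

theorem AA_eq (X : Fr e p R) (ξ η ζ : Eu E) :
    AA X ξ η ζ = inner ℝ (tt X ξ η) (ss e p ξ ζ) := by
  rw [AA_apply, ← fr_ss p ξ ζ, ← fr_tt X ξ η, ip_fr]

theorem det_inner {V : Type*} [NormedAddCommGroup V] [InnerProductSpace ℝ V]
    (o : OrthonormalBasis (Fin k) ℝ V) (T S : V →ₗ[ℝ] V) :
    (Matrix.of fun i j => (inner ℝ (T (o j)) (S (o i)) : ℝ)).det =
      LinearMap.det T * LinearMap.det S := by
  have h1 : (Matrix.of fun i j => (inner ℝ (T (o j)) (S (o i)) : ℝ)) =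
      (LinearMap.toMatrix o.toBasis o.toBasis S).transpose *
        LinearMap.toMatrix o.toBasis o.toBasis T := by
    ext i j
    rw [Matrix.mul_apply, Matrix.of_apply, ← o.sum_inner_mul_inner]
    refine Finset.sum_congr rfl fun l _ => ?_
    rw [Matrix.transpose_apply, LinearMap.toMatrix_apply, LinearMap.toMatrix_apply,
      OrthonormalBasis.coe_toBasis, OrthonormalBasis.coe_toBasis_repr_apply,
      OrthonormalBasis.coe_toBasis_repr_apply, OrthonormalBasis.repr_apply_apply,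
      OrthonormalBasis.repr_apply_apply, real_inner_comm]
    ring
  rw [h1, Matrix.det_mul, Matrix.det_transpose, LinearMap.det_toMatrix, LinearMap.det_toMatrix,
    mul_comm]

theorem det_AA (X : Fr e p R) (o : OrthonormalBasis (Fin k) ℝ (Eu E)) (ξ : Eu E) :
    (Matrix.of fun i j => AA X ξ (o j) (o i)).det =
      LinearMap.det (tt X ξ) * LinearMap.det (ss e p ξ) := by
  rw [← det_inner o]
  congr 1
  ext i j
  exact AA_eq X ξ _ _

theorem tt_eq (X : Fr e p R) {ξ : Eu E} (T : Eu E ≃L[ℝ] Eu E)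
    (hT : ∀ η, fr (ef e p ξ) (T η) = X.B ξ η) : tt X ξ = (T : Eu E →ₗ[ℝ] Eu E) := by
  ext1 η
  refine (fr (ef e p ξ)).injective ?_
  rw [fr_tt]
  exact (hT η).symm

theorem abs_det_AA (X : Fr e p R) (o : OrthonormalBasis (Fin k) ℝ (Eu E))
    {ξ : Eu E} (T : Eu E ≃L[ℝ] Eu E) (hT : ∀ η, fr (ef e p ξ) (T η) = X.B ξ η) :
    |(Matrix.of fun i j => AA X ξ (o j) (o i)).det| =
      |LinearMap.det (T : Eu E →ₗ[ℝ] Eu E)| * jac e p (fr p ξ) := by
  rw [det_AA, abs_mul, abs_det_ss, tt_eq X T hT]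

theorem continuousOn_det (he : IsExp e) (X : Fr e p R) (o : OrthonormalBasis (Fin k) ℝ (Eu E)) :
    ContinuousOn (fun ξ => (Matrix.of fun i j => AA X ξ (o j) (o i)).det) (Metric.ball 0 R) := by
  have h0 : Continuous fun A : Matrix (Fin k) (Fin k) ℝ => A.det := continuous_id.matrix_det
  refine h0.comp_continuousOn ?_
  refine continuousOn_pi.2 fun i => continuousOn_pi.2 fun j => ?_
  intro ξ hξ
  have h1 := (contDiffAt_AA he X (mem_ball_zero_iff.1 hξ)).continuousAt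
  exact ((h1.clm_apply continuousAt_const).clm_apply continuousAt_const).continuousWithinAt

/-- **sign and determinant** -/
theorem abs_integral [CompactSpace M] [ConnectedSpace M] [IsRiemannianManifold 𝓘(ℝ, E) M]
    (F : Facts e) {D : ℝ} (hD : 0 < D) (hB : InjGE e D) (hDR : D ≤ R) (X : Fr e p R)
    (o : OrthonormalBasis (Fin k) ℝ (Eu E)) {c : Eu E → ℝ}
    (hc : ∀ ξ, ‖ξ‖ < R → ∀ T : Eu E ≃L[ℝ] Eu E, (∀ η, fr (ef e p ξ) (T η) = X.B ξ η) →
      c ξ = |LinearMap.det (T : Eu E →ₗ[ℝ] Eu E)|⁻¹) :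
    |∫ ξ in Metric.ball (0 : Eu E) D, (Matrix.of fun i j => AA X ξ (o j) (o i)).det * c ξ| =
      ∫ ξ in Metric.ball (0 : Eu E) D, jac e p (fr p ξ) := by
  have he := F.isExp
  set d : Eu E → ℝ := fun ξ => (Matrix.of fun i j => AA X ξ (o j) (o i)).det with hd
  have hdc : ContinuousOn d (Metric.ball 0 D) :=
    (continuousOn_det he X o).mono (Metric.ball_subset_ball hDR)
  have key : ∀ ξ ∈ Metric.ball (0 : Eu E) D, d ξ ≠ 0 ∧ |d ξ| * c ξ = jac e p (fr p ξ) := by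
    intro ξ hξ
    have h1 : ‖ξ‖ < D := mem_ball_zero_iff.1 hξ
    obtain ⟨T, hT⟩ := exists_T X (h1.trans_le hDR)
    have h2 := abs_det_AA X o T hT
    have h3 : |LinearMap.det (T : Eu E →ₗ[ℝ] Eu E)| ≠ 0 :=
      abs_ne_zero.2 (LinearEquiv.isUnit_det' T.toLinearEquiv).ne_zero
    have h4 : 0 < jac e p (fr p ξ) := jac_pos F hB (by rw [nm_fr]; exact h1)
    constructor
    · intro h5
      rw [hd] at h5
      simp only at h5
      rw [h5, abs_zero] at h2
      exact (mul_ne_zero h3 h4.ne') h2.symm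
    · rw [hc ξ (h1.trans_le hDR) T hT]
      simp only [hd]
      rw [h2, mul_comm, ← mul_assoc, inv_mul_cancel₀ h3, one_mul]
  have hconn : IsPreconnected (Metric.ball (0 : Eu E) D) := (convex_ball 0 D).isPreconnected
  have hsign : (∀ ξ ∈ Metric.ball (0 : Eu E) D, 0 < d ξ) ∨
      ∀ ξ ∈ Metric.ball (0 : Eu E) D, d ξ < 0 := by
    by_contra hcon
    push Not at hcon
    obtain ⟨⟨a, ha, ha'⟩, ⟨b, hb, hb'⟩⟩ := hcon
    have h1 := hconn.intermediate_value ha hb hdc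
    obtain ⟨ξ, hξ, h2⟩ := h1 ⟨ha', hb'⟩
    exact (key ξ hξ).1 h2
  rcases hsign with hs | hs
  · have h1 : ∫ ξ in Metric.ball (0 : Eu E) D, d ξ * c ξ =
        ∫ ξ in Metric.ball (0 : Eu E) D, jac e p (fr p ξ) := by
      refine setIntegral_congr_fun measurableSet_ball fun ξ hξ => ?_
      have h2 := (key ξ hξ).2
      rw [abs_of_pos (hs ξ hξ)] at h2
      exact h2
    rw [h1, abs_of_nonneg (integral_nonneg fun ξ => Jac.nonneg _ _)]
  · have h1 : ∫ ξ in Metric.ball (0 : Eu E) D, d ξ * c ξ =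
        ∫ ξ in Metric.ball (0 : Eu E) D, -jac e p (fr p ξ) := by
      refine setIntegral_congr_fun measurableSet_ball fun ξ hξ => ?_
      have h2 := (key ξ hξ).2
      rw [abs_of_neg (hs ξ hξ), neg_mul] at h2
      show d ξ * c ξ = -jac e p (fr p ξ)
      rw [← h2, neg_neg]
    rw [h1, integral_neg, abs_neg, abs_of_nonneg (integral_nonneg fun ξ => Jac.nonneg _ _)]

end

end Vale.Agent.P231.CV
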