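import Vale.Agent.P231.W.Defs

/-!
# P231, block H-c: the first variation formula along the geodesic flow
-/

set_option maxSynthPendingDepth 3
set_option linter.unusedSectionVars false
set_option linter.unusedVariables false

open Bundle Manifold Set Filter Module
open scoped ContDiff Manifold Topology

namespace Vale.Agent.P231.CV

noncomputable section

open Vale.Agent.P234 Vale.Agent.P231 Vale.Agent.P231.Fm Vale.Agent.P231.W

variable {E : Type*} [NormedAddCommGroup E] [NormedSpace ℝ E]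
  {M : Type*} [MetricSpace M] [ChartedSpace E M]
  [RiemannianBundle (fun x : M => TangentSpace 𝓘(ℝ, E) x)]
  {e : ∀ x : M, TangentSpace 𝓘(ℝ, E) x → M}
  [FiniteDimensional ℝ E] [IsManifold 𝓘(ℝ, E) ∞ M]
  [IsContMDiffRiemannianBundle 𝓘(ℝ, E) ∞ E (fun x : M => TangentSpace 𝓘(ℝ, E) x)]
  [CompactSpace M] [ConnectedSpace M] [IsRiemannianManifold 𝓘(ℝ, E) M]

theorem ip_congr3 {x y : M} {a b a' b' : E} (h : x = y) (ha : a = a') (hb : b = b') :
    ip x a b = ip y a' b' := by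
  subst h ha hb
  rfl

/-- the position at time `t` is smooth along plots -/
theorem at_gm (F : Facts e) {V : Type} [NormedAddCommGroup V] [NormedSpace ℝ V]
    [FiniteDimensional ℝ V] {u : V → UT E M} {x : V} (hu : (dUT E M).At u x) (t : ℝ) :
    (dM E M).At (fun y => gm e (u y, t)) x :=
  map_gm F (u := fun y => (u y, t)) ⟨hu, Sm.of_contDiff contDiff_const _⟩

theorem mdiff_gm (F : Facts e) {V : Type} [NormedAddCommGroup V] [NormedSpace ℝ V]
    [FiniteDimensional ℝ V] {u : V → UT E M} {x : V} (hu : (dUT E M).At u x) (t : ℝ) :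
    ContMDiffAt 𝓘(ℝ, V) 𝓘(ℝ, E) ∞ (fun y => gm e (u y, t)) x :=
  Filter.Eventually.self_of_nhds (at_gm F hu t)

/-- derivative of the cost along a plot in the first variable -/
theorem fderiv_cost_fst (he : IsExp e) {V : Type} [NormedAddCommGroup V] [NormedSpace ℝ V]
    [FiniteDimensional ℝ V] {G : V → M} {x : V} (hG : ContMDiffAt 𝓘(ℝ, V) 𝓘(ℝ, E) ∞ G x)
    {y : M} {v : E} (hv : (v : TangentSpace 𝓘(ℝ, E) (G x)) ∈ segMin e (G x))
    (hy : e (G x) v = y) (hs : SmoothAt E (G x) y) (ζ : V) :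
    fderiv ℝ (fun z => cost (G z) y) x ζ =
      - ip (G x) v (mfderiv 𝓘(ℝ, V) 𝓘(ℝ, E) G x ζ) := by
  subst hy
  have h1 := mfderiv_comp_apply (I := 𝓘(ℝ, V)) (I' := 𝓘(ℝ, E)) (I'' := 𝓘(ℝ, ℝ)) x
    (g := fun q : M => cost q (e (G x) v)) (f := G)
    (mdifferentiableAt_cost hs) (hG.mdifferentiableAt (by simp)) ζ
  have h2 := mfderiv_cost he (G x) v hv hs (mfderiv 𝓘(ℝ, V) 𝓘(ℝ, E) G x ζ)
  rw [mfderiv_eq_fderiv] at h1
  exact h1.trans h2

/-- the first variation formula for close times -/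
theorem first_var_close (F : Facts e) : ∃ ρ : ℝ, 0 < ρ ∧ ∀ {V : Type} [NormedAddCommGroup V]
    [NormedSpace ℝ V] [FiniteDimensional ℝ V] {u : V → UT E M} {x : V}
    (hu : (dUT E M).At u x) (s t : ℝ) (hst : |t - s| < ρ) (ζ : V),
    ip (gm e (u x, t)) (vel e (foot (u x)) (vec' (u x)) t)
        (mfderiv 𝓘(ℝ, V) 𝓘(ℝ, E) (fun y => gm e (u y, t)) x ζ) =
      ip (gm e (u x, s)) (vel e (foot (u x)) (vec' (u x)) s)
        (mfderiv 𝓘(ℝ, V) 𝓘(ℝ, E) (fun y => gm e (u y, s)) x ζ) := by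
  obtain ⟨ρ, hρ, hmin⟩ := F.isExp.minimizing
  have he := F.isExp
  have hseg : ∀ (y : M) (v : TangentSpace 𝓘(ℝ, E) y), ‖v‖ < ρ → v ∈ segMin e y := by
    intro y v hv
    have h1 := hmin y v 0 1 (by simpa only [sub_zero, abs_one, mul_one] using hv.le)
    rw [zero_smul, one_smul, he.map_zero] at h1
    change dist _ _ = _
    simpa using h1
  have hmin' : ∀ (x : M) (v : E) (s t : ℝ), nm x v * |t - s| ≤ ρ →
      dist (e x (s • v : E)) (e x (t • v : E)) = nm x v * |t - s| := hmin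
  have hinj : ∀ (y : M) (v : TangentSpace 𝓘(ℝ, E) y), ‖v‖ < ρ → v ∈ injDomain e y := by
    intro y v hv
    obtain ⟨r, hr1, hr2⟩ : ∃ r : ℝ, 1 < r ∧ ‖v‖ * r ≤ ρ := by
      rcases (norm_nonneg v).eq_or_lt with h0 | h0
      · exact ⟨2, one_lt_two, by rw [← h0, zero_mul]; exact hρ.le⟩
      · exact ⟨ρ / ‖v‖, by rw [lt_div_iff₀ h0]; simpa using hv, by
          rw [mul_div_cancel₀ _ h0.ne']⟩
    refine ⟨r, hr1, ?_⟩
    have h1 := hmin y v 0 r (by rwa [sub_zero, abs_of_pos (by linarith)])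
    rw [zero_smul, he.map_zero, sub_zero, abs_of_pos (by linarith only [hr1] : (0 : ℝ) < r)] at h1
    rw [h1, mul_comm]
  refine ⟨ρ, hρ, ?_⟩
  intro V _ _ _ u x hu s t hst ζ
  rcases eq_or_ne s t with rfl | hne
  · rfl
  have hnorm : ∀ r τ : ℝ, |r| < ρ → nm (gm e (u x, τ))
      (r • vel e (foot (u x)) (vec' (u x)) τ : E) < ρ := by
    intro r τ hr
    have h1 : nm (gm e (u x, τ)) (vel e (foot (u x)) (vec' (u x)) τ : E) = 1 :=
      (nm_vel F _ _ _).trans (nm_vec' (u x))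
    rw [nm_smul, h1, mul_one]
    exact hr
  have hgo : ∀ σ τ : ℝ, e (gm e (u x, σ)) ((τ - σ) • vel e (foot (u x)) (vec' (u x)) σ : E) =
      gm e (u x, τ) := by
    intro σ τ
    have h1 := gam_flow F (foot (u x)) (vec' (u x)) σ (τ - σ)
    rw [add_sub_cancel] at h1
    exact h1
  have hsm : ∀ σ τ : ℝ, |τ - σ| < ρ → SmoothAt E (gm e (u x, σ)) (gm e (u x, τ)) := by
    intro σ τ h
    have h1 := F.smooth_cost _ _ (hinj (gm e (u x, σ)) _ (hnorm (τ - σ) σ h))
    rwa [hgo σ τ] at h1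
  have hGs := mdiff_gm F hu s
  have hGt := mdiff_gm F hu t
  -- the two partial derivatives
  have h1 := fderiv_cost_fst he hGs (y := gm e (u x, t))
    (v := (t - s) • vel e (foot (u x)) (vec' (u x)) s) (hseg _ _ (hnorm (t - s) s hst)) (hgo s t)
    (hsm s t hst) ζ
  have hst' : |s - t| < ρ := by rwa [abs_sub_comm]
  have h2 := fderiv_cost_fst he hGt (y := gm e (u x, s))
    (v := (s - t) • vel e (foot (u x)) (vec' (u x)) t) (hseg _ _ (hnorm (s - t) t hst')) (hgo t s)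
    (hsm t s hst') ζ
  -- the cost as a function of two variables
  set Φ : V × V → ℝ := fun z => cost (gm e (u z.1, s)) (gm e (u z.2, t)) with hΦ
  have hΦd : DifferentiableAt ℝ Φ (x, x) := by
    have h3 : ContMDiffAt 𝓘(ℝ, V × V) 𝓘(ℝ, E) ∞ (fun z : V × V => gm e (u z.1, s)) (x, x) :=
      ContMDiffAt.comp (x, x) (f := (Prod.fst : V × V → V)) hGs contDiff_fst.contMDiff.contMDiffAt
    have h4 : ContMDiffAt 𝓘(ℝ, V × V) 𝓘(ℝ, E) ∞ (fun z : V × V => gm e (u z.2, t)) (x, x) :=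
      ContMDiffAt.comp (x, x) (f := (Prod.snd : V × V → V)) hGt contDiff_snd.contMDiff.contMDiffAt
    have h5 := ContMDiffAt.comp (x, x) (f := fun z : V × V => (gm e (u z.1, s), gm e (u z.2, t)))
      (hsm s t hst).contMDiffAt (h3.prodMk h4)
    exact h5.contDiffAt.differentiableAt (by simp)
  have hconst : ∀ y : V, Φ (y, y) = (t - s) ^ 2 / 2 := by
    intro y
    have h4 : dist (e (foot (u y)) (s • vec' (u y) : E)) (e (foot (u y)) (t • vec' (u y) : E)) =
        nm (foot (u y)) (vec' (u y)) * |t - s| := by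
      refine hmin' (foot (u y)) (vec' (u y)) s t ?_
      rw [nm_vec', one_mul]
      exact hst.le
    rw [nm_vec', one_mul] at h4
    change (dist (e (foot (u y)) (s • vec' (u y) : E)) (e (foot (u y)) (t • vec' (u y) : E))) ^ 2 / 2
      = _
    rw [h4, sq_abs]
  have h3 : HasFDerivAt (fun y : V => Φ (y, y)) (fderiv ℝ Φ (x, x) ∘L
      ((ContinuousLinearMap.id ℝ V).prod (ContinuousLinearMap.id ℝ V))) x :=
    HasFDerivAt.comp x (f := fun y : V => (y, y)) hΦd.hasFDerivAt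
      ((hasFDerivAt_id x).prodMk (hasFDerivAt_id x))
  have h4 : HasFDerivAt (fun y : V => Φ (y, y)) (0 : V →L[ℝ] ℝ) x := by
    have h5 : (fun y : V => Φ (y, y)) = fun _ => (t - s) ^ 2 / 2 := funext hconst
    rw [h5]
    exact hasFDerivAt_const _ _
  have h5 : fderiv ℝ Φ (x, x) (ζ, ζ) = 0 := by
    have h6 := congrArg (fun L : V →L[ℝ] ℝ => L ζ) (h3.unique h4)
    exact h6
  have h6 : fderiv ℝ (fun z => cost (gm e (u z, s)) (gm e (u x, t))) x ζ =
      fderiv ℝ Φ (x, x) (ζ, 0) := by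
    have h7 : HasFDerivAt (fun y : V => Φ (y, x)) (fderiv ℝ Φ (x, x) ∘L
      ((ContinuousLinearMap.id ℝ V).prod (0 : V →L[ℝ] V))) x :=
      HasFDerivAt.comp x (f := fun y : V => (y, x)) hΦd.hasFDerivAt
        ((hasFDerivAt_id x).prodMk (hasFDerivAt_const x x))
    have h8 := h7.fderiv
    change fderiv ℝ (fun y : V => Φ (y, x)) x ζ = _
    rw [h8]
    rfl
  have h7 : fderiv ℝ (fun z => cost (gm e (u z, t)) (gm e (u x, s))) x ζ =
      fderiv ℝ Φ (x, x) (0, ζ) := by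
    have h8 : HasFDerivAt (fun y : V => Φ (x, y)) (fderiv ℝ Φ (x, x) ∘L
      ((0 : V →L[ℝ] V).prod (ContinuousLinearMap.id ℝ V))) x :=
      HasFDerivAt.comp x (f := fun y : V => (x, y)) hΦd.hasFDerivAt
        ((hasFDerivAt_const x x).prodMk (hasFDerivAt_id x))
    have h9 : (fun z => cost (gm e (u z, t)) (gm e (u x, s))) = fun y : V => Φ (x, y) := by
      funext z
      exact cost_comm _ _
    rw [h9, h8.fderiv]
    rfl
  have h8 : fderiv ℝ Φ (x, x) (ζ, 0) + fderiv ℝ Φ (x, x) (0, ζ) = 0 := by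
    rw [← map_add, Prod.mk_add_mk, add_zero, zero_add, h5]
  have h9 : ∀ (p : M) (c : ℝ) (a b : E), -ip p (c • a) b = -(c * ip p a b) := fun p c a b =>
    congrArg Neg.neg (real_inner_smul_left (F := TangentSpace 𝓘(ℝ, E) p) a b c)
  rw [← h6, ← h7, h1.trans (h9 _ _ _ _), h2.trans (h9 _ _ _ _)] at h8
  have h10 : (t - s) * (ip (gm e (u x, t)) (vel e (foot (u x)) (vec' (u x)) t)
        (mfderiv 𝓘(ℝ, V) 𝓘(ℝ, E) (fun y => gm e (u y, t)) x ζ) -
      ip (gm e (u x, s)) (vel e (foot (u x)) (vec' (u x)) s)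
        (mfderiv 𝓘(ℝ, V) 𝓘(ℝ, E) (fun y => gm e (u y, s)) x ζ)) = 0 := by
    linear_combination h8
  have h11 := (mul_eq_zero.1 h10).resolve_left (sub_ne_zero.2 hne.symm)
  linarith

/-- **first variation formula along the geodesic flow** -/
theorem first_var (F : Facts e) {V : Type} [NormedAddCommGroup V] [NormedSpace ℝ V]
    [FiniteDimensional ℝ V] {u : V → UT E M} {x : V} (hu : (dUT E M).At u x) (t : ℝ) (ζ : V) :
    ip (gm e (u x, t)) (vel e (foot (u x)) (vec' (u x)) t)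
        (mfderiv 𝓘(ℝ, V) 𝓘(ℝ, E) (fun y => gm e (u y, t)) x ζ) =
      ip (foot (u x)) (vec' (u x)) (mfderiv 𝓘(ℝ, V) 𝓘(ℝ, E) (foot ∘ u) x ζ) := by
  obtain ⟨ρ, hρ, h⟩ := first_var_close F
  set H : ℝ → ℝ := fun t => ip (gm e (u x, t)) (vel e (foot (u x)) (vec' (u x)) t)
        (mfderiv 𝓘(ℝ, V) 𝓘(ℝ, E) (fun y => gm e (u y, t)) x ζ) with hH
  have h1 : IsLocallyConstant H := by
    rw [IsLocallyConstant.iff_eventually_eq]
    intro s
    filter_upwards [Metric.ball_mem_nhds s hρ] with t ht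
    rw [Metric.mem_ball, Real.dist_eq] at ht
    exact h hu s t ht ζ
  have h2 : H t = H 0 := h1.apply_eq_of_preconnectedSpace t 0
  refine h2.trans ?_
  have key : ∀ f g : V → M, f = g →
      (mfderiv 𝓘(ℝ, V) 𝓘(ℝ, E) f x ζ : E) = mfderiv 𝓘(ℝ, V) 𝓘(ℝ, E) g x ζ := by
    rintro f g rfl
    rfl
  exact ip_congr3 (gm_zero F (u x)) (vel_zero F.isExp _ _)
    (key _ _ (funext fun y => gm_zero F (u y)))

end

end Vale.Agent.P231.CV
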