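import Vale.Agent.P231.Q.Phi
import Vale.Agent.P231.WN.Num

/-!
# P231, block H: the radial integral

`radial`: for a radial cutoff `r` (`0` near `0`, `1` outside a compact set) and a linear
isomorphism `T` of `ℝ^m`, `∫ dr_η(η) ‖T η‖^(-m) dη = |det T|⁻¹ vol(S^(m-1))`.
-/

open Module MeasureTheory Set Filter Topology Metric
open scoped ContDiff

set_option linter.unusedSectionVars false
set_option linter.style.haveILetI false

namespace Vale.Agent.P231.CV

section Polar

variable {E : Type*} [NormedAddCommGroup E] [NormedSpace ℝ E] [FiniteDimensional ℝ E]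
  [MeasurableSpace E] [BorelSpace E] (μ : Measure E) [μ.IsAddHaarMeasure]

/-- integration in polar coordinates -/
theorem integral_polar [Nontrivial E] {f : E → ℝ} (hf : Integrable f μ) :
    ∫ x, f x ∂μ = ∫ θ : sphere (0 : E) 1,
      (∫ s in Ioi (0 : ℝ), s ^ (finrank ℝ E - 1) * f (s • (θ : E))) ∂μ.toSphere := by
  have hemb := (homeomorphUnitSphereProd E).measurableEmbedding
  have hmp := μ.measurePreserving_homeomorphUnitSphereProd
  let g : sphere (0 : E) 1 × Ioi (0 : ℝ) → ℝ := fun p => f ((p.2 : ℝ) • (p.1 : E))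
  have h1 : ∀ x : ({0}ᶜ : Set E), g (homeomorphUnitSphereProd E x) = f x := by
    intro x
    have hx : ‖(x : E)‖ ≠ 0 := norm_ne_zero_iff.2 x.2
    simp [g, smul_smul, hx]
  have h2 : ∫ x, f x ∂μ = ∫ x : ({(0)}ᶜ : Set E), f x.1 ∂(μ.comap (↑)) := by
    rw [integral_subtype_comap (measurableSet_singleton _).compl fun x ↦ f x,
      restrict_compl_singleton]
  have h3 : Integrable g (μ.toSphere.prod (.volumeIoiPow (finrank ℝ E - 1))) := by
    rw [← hmp.integrable_comp_emb hemb]
    have h4 : (g ∘ homeomorphUnitSphereProd E) = fun x : ({0}ᶜ : Set E) => f x := funext h1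
    rw [h4]
    exact (integrableOn_iff_comap_subtypeVal (μ := μ) (f := f)
      (measurableSet_singleton (0 : E)).compl).1 hf.integrableOn
  have h5 : ∫ x : ({(0)}ᶜ : Set E), f x.1 ∂(μ.comap (↑)) =
      ∫ p, g p ∂(μ.toSphere.prod (.volumeIoiPow (finrank ℝ E - 1))) := by
    rw [← hmp.integral_comp hemb]
    exact integral_congr_ae (Eventually.of_forall fun x => (h1 x).symm)
  rw [h2, h5, integral_prod _ h3]
  refine integral_congr_ae (Eventually.of_forall fun θ => ?_)
  simp only [Measure.volumeIoiPow, ENNReal.ofReal, g]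
  rw [integral_withDensity_eq_integral_smul,
    integral_subtype_comap measurableSet_Ioi
      fun a ↦ Real.toNNReal (a ^ (finrank ℝ E - 1)) • f (a • (θ : E)),
    setIntegral_congr_fun measurableSet_Ioi fun x hx ↦ ?_]
  · rw [NNReal.smul_def, Real.coe_toNNReal _ (pow_nonneg hx.out.le _), smul_eq_mul]
  · exact (measurable_subtype_coe.pow_const _).real_toNNReal

end Polar

section Cut

variable {F : Type*} [NormedAddCommGroup F] [NormedSpace ℝ F] [FiniteDimensional ℝ F]

theorem cut_dr_out {r : F → ℝ} {K : Set F} (h : Q.Cut r K) {y : F} (hy : y ∉ K) :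
    fderiv ℝ r y = 0 := by
  have h1 : r =ᶠ[𝓝 y] fun _ => 1 := by
    filter_upwards [h.compact.isClosed.isOpen_compl.mem_nhds hy] with z hz using h.one z hz
  rw [h1.fderiv_eq]
  simp

theorem cut_dr_near {r : F → ℝ} {K : Set F} (h : Q.Cut r K) :
    ∀ᶠ y in 𝓝 (0 : F), fderiv ℝ r y = 0 := by
  filter_upwards [eventually_eventually_nhds.2 h.zero] with y hy
  have h1 : r =ᶠ[𝓝 y] fun _ => 0 := hy
  rw [h1.fderiv_eq]
  simp

/-- the integral of the radial derivative along a ray -/
theorem integral_ray {r : F → ℝ} {K : Set F} (h : Q.Cut r K) {θ : F} (hθ : ‖θ‖ = 1) :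
    ∫ s in Ioi (0 : ℝ), fderiv ℝ r (s • θ) θ = 1 := by
  have hd : ∀ s : ℝ, HasDerivAt (fun s : ℝ => r (s • θ)) (fderiv ℝ r (s • θ) θ) s := by
    intro s
    have h1 : HasFDerivAt r (fderiv ℝ r (s • θ)) (s • θ) :=
      (h.smooth.differentiable (by simp) _).hasFDerivAt
    have h2 : HasDerivAt (fun s : ℝ => s • θ) ((1 : ℝ) • θ) s :=
      (hasDerivAt_id s).smul_const θ
    rw [one_smul] at h2
    exact h1.comp_hasDerivAt s h2
  obtain ⟨R, hR⟩ := h.compact.isBounded.subset_closedBall (0 : F)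
  have hout : ∀ s : ℝ, max R 0 < s → s • θ ∉ K := by
    intro s hs hK
    have h1 := hR hK
    rw [mem_closedBall_zero_iff, norm_smul, hθ, mul_one, Real.norm_eq_abs] at h1
    have h2 := le_abs_self s
    have h3 := le_max_left R 0
    linarith
  have hcont : Continuous fun s : ℝ => fderiv ℝ r (s • θ) θ := by
    have h1 : Continuous fun y => fderiv ℝ r y := h.smooth.continuous_fderiv (by simp)
    exact (h1.comp (continuous_id.smul continuous_const)).clm_apply continuous_const
  have hint : Integrable fun s : ℝ => fderiv ℝ r (s • θ) θ := by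
    refine hcont.integrable_of_hasCompactSupport ?_
    refine HasCompactSupport.intro (isCompact_Icc (a := -(max R 0)) (b := max R 0)) fun s hs => ?_
    have hs' : max R 0 < |s| := by
      by_contra hcon
      exact hs (abs_le.1 (not_lt.1 hcon))
    have h1 : s • θ ∉ K := by
      intro hK
      have h1 := hR hK
      rw [mem_closedBall_zero_iff, norm_smul, hθ, mul_one, Real.norm_eq_abs] at h1
      have h3 := le_max_left R 0
      linarith
    rw [cut_dr_out h h1]
    rfl
  have hlim : Tendsto (fun s : ℝ => r (s • θ)) atTop (𝓝 1) := by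
    refine tendsto_const_nhds.congr' ?_
    filter_upwards [eventually_gt_atTop (max R 0)] with s hs using (h.one _ (hout s hs)).symm
  have h0 : r ((0 : ℝ) • θ) = 0 := by
    rw [zero_smul]
    exact h.zero.self_of_nhds
  have := integral_Ioi_of_hasDerivAt_of_tendsto' (a := 0) (fun s _ => hd s) hint.integrableOn hlim
  rw [this, h0, sub_zero]

/-- a cutoff transported by a linear isomorphism -/
theorem cut_comp {r : F → ℝ} {K : Set F} (h : Q.Cut r K) (T : F ≃L[ℝ] F) :
    Q.Cut (fun y => r (T.symm y)) (T '' K) where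
  smooth := h.smooth.comp T.symm.contDiff
  compact := h.compact.image T.continuous
  one := fun y hy => h.one _ fun hK => hy ⟨T.symm y, hK, T.apply_symm_apply y⟩
  zero := by
    have h1 : Tendsto T.symm (𝓝 0) (𝓝 0) := by
      have := T.symm.continuous.tendsto 0
      rwa [map_zero] at this
    exact h1.eventually h.zero

end Cut

variable {m : ℕ}

theorem integrable_rad {r : EuclideanSpace ℝ (Fin m) → ℝ} {K : Set (EuclideanSpace ℝ (Fin m))}
    (hr : Q.Cut r K) : Integrable fun η => (fderiv ℝ r η η) * (‖η‖ ^ m)⁻¹ := by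
  have hc : Continuous fun y => fderiv ℝ r y := hr.smooth.continuous_fderiv (by simp)
  refine Continuous.integrable_of_hasCompactSupport ?_ ?_
  · rw [continuous_iff_continuousAt]
    intro y
    by_cases hy : y = 0
    · subst hy
      refine continuousAt_const.congr (f := fun _ => (0 : ℝ)) ?_
      filter_upwards [cut_dr_near hr] with z hz
      rw [hz]
      simp
    · have h1 : ContinuousAt (fun η => fderiv ℝ r η η) y :=
        (hc.clm_apply continuous_id).continuousAt
      refine h1.mul (ContinuousAt.inv₀ (continuous_norm.pow m).continuousAt ?_)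
      exact pow_ne_zero _ (norm_ne_zero_iff.2 hy)
  · refine HasCompactSupport.intro hr.compact fun y hy => ?_
    rw [cut_dr_out hr hy]
    simp

theorem radial_id (hm : 0 < m) {r : EuclideanSpace ℝ (Fin m) → ℝ}
    {K : Set (EuclideanSpace ℝ (Fin m))} (hr : Q.Cut r K) :
    ∫ η, (fderiv ℝ r η η) * (‖η‖ ^ m)⁻¹ =
      m * (volume (ball (0 : EuclideanSpace ℝ (Fin m)) 1)).toReal := by
  haveI : Nonempty (Fin m) := ⟨⟨0, hm⟩⟩
  have hfr : finrank ℝ (EuclideanSpace ℝ (Fin m)) = m := finrank_euclideanSpace_fin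
  haveI : Nontrivial (EuclideanSpace ℝ (Fin m)) := by
    apply Module.nontrivial_of_finrank_pos (R := ℝ)
    rw [hfr]; exact hm
  rw [integral_polar volume (integrable_rad hr), hfr]
  have h1 : ∀ θ : sphere (0 : EuclideanSpace ℝ (Fin m)) 1,
      ∫ s in Ioi (0 : ℝ), s ^ (m - 1) * ((fderiv ℝ r (s • (θ : EuclideanSpace ℝ (Fin m)))
        (s • (θ : EuclideanSpace ℝ (Fin m)))) * (‖s • (θ : EuclideanSpace ℝ (Fin m))‖ ^ m)⁻¹) =
        1 := by
    intro θ
    have hθ : ‖(θ : EuclideanSpace ℝ (Fin m))‖ = 1 := by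
      have := θ.2
      rwa [mem_sphere_zero_iff_norm] at this
    refine Eq.trans ?_ (integral_ray hr hθ)
    refine setIntegral_congr_fun measurableSet_Ioi fun s hs => ?_
    have hs0 : (0 : ℝ) < s := hs
    have hm1 : m = (m - 1) + 1 := by omega
    show s ^ (m - 1) * ((fderiv ℝ r (s • (θ : EuclideanSpace ℝ (Fin m)))
        (s • (θ : EuclideanSpace ℝ (Fin m)))) * (‖s • (θ : EuclideanSpace ℝ (Fin m))‖ ^ m)⁻¹) =
      fderiv ℝ r (s • (θ : EuclideanSpace ℝ (Fin m))) θ
    rw [norm_smul, hθ, mul_one, Real.norm_eq_abs, abs_of_pos hs0, map_smul, smul_eq_mul]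
    have h2 : s ^ m = s ^ (m - 1) * s := by
      conv_lhs => rw [hm1]
      exact pow_succ _ _
    rw [h2]
    field_simp
  rw [integral_congr_ae (Eventually.of_forall h1), integral_const, smul_eq_mul, mul_one,
    Measure.toSphere_real_apply_univ, hfr]
  rfl

/-- **the radial integral** -/
theorem radial (hm : 0 < m) {r : EuclideanSpace ℝ (Fin m) → ℝ}
    {K : Set (EuclideanSpace ℝ (Fin m))} (hr : Q.Cut r K)
    (T : EuclideanSpace ℝ (Fin m) ≃L[ℝ] EuclideanSpace ℝ (Fin m)) :
    ∫ η, (fderiv ℝ r η η) * (‖T η‖ ^ m)⁻¹ =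
      |LinearMap.det ((T : EuclideanSpace ℝ (Fin m) →L[ℝ] EuclideanSpace ℝ (Fin m)) :
        EuclideanSpace ℝ (Fin m) →ₗ[ℝ] EuclideanSpace ℝ (Fin m))|⁻¹ *
        (m * (volume (ball (0 : EuclideanSpace ℝ (Fin m)) 1)).toReal) := by
  have hr' := cut_comp hr T
  have hfd : ∀ y v, fderiv ℝ (fun y => r (T.symm y)) y v = fderiv ℝ r (T.symm y) (T.symm v) := by
    intro y v
    have h1 : HasFDerivAt r (fderiv ℝ r (T.symm y)) (T.symm y) :=
      (hr.smooth.differentiable (by simp) _).hasFDerivAt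
    have h2 := h1.comp y T.symm.hasFDerivAt
    have h3 : fderiv ℝ (fun y => r (T.symm y)) y = _ := h2.fderiv
    rw [h3]
    rfl
  set G : EuclideanSpace ℝ (Fin m) → ℝ := fun ζ =>
    (fderiv ℝ (fun y => r (T.symm y)) ζ ζ) * (‖ζ‖ ^ m)⁻¹ with hG
  have h4 : (fun η => (fderiv ℝ r η η) * (‖T η‖ ^ m)⁻¹) = fun η => G (T η) := by
    funext η
    rw [hG]
    simp only
    rw [hfd, T.symm_apply_apply]
  rw [h4]
  have hdet : LinearMap.det ((T : EuclideanSpace ℝ (Fin m) →L[ℝ] EuclideanSpace ℝ (Fin m)) :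
      EuclideanSpace ℝ (Fin m) →ₗ[ℝ] EuclideanSpace ℝ (Fin m)) ≠ 0 := by
    have := T.toLinearEquiv.isUnit_det'
    exact this.ne_zero
  have hmap := Measure.map_linearMap_addHaar_eq_smul_addHaar
    (volume : Measure (EuclideanSpace ℝ (Fin m))) hdet
  have h5 : ∫ η, G (T η) = ∫ ζ, G ζ ∂(Measure.map T volume) := by
    exact (T.toHomeomorph.measurableEmbedding.integral_map (μ := volume) G).symm
  have h6 : (Measure.map T volume : Measure (EuclideanSpace ℝ (Fin m))) =
      ENNReal.ofReal |(LinearMap.det ((T : EuclideanSpace ℝ (Fin m) →L[ℝ]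
        EuclideanSpace ℝ (Fin m)) : EuclideanSpace ℝ (Fin m) →ₗ[ℝ]
          EuclideanSpace ℝ (Fin m)))⁻¹| • volume := hmap
  rw [h5, h6, integral_smul_measure, ENNReal.toReal_ofReal (abs_nonneg _), smul_eq_mul,
    radial_id hm hr', abs_inv]

/-- the volume of the unit sphere of `ℝ^(2n)` -/
theorem sphere_num {n : ℕ} (hn : 0 < n) :
    ((2 * n : ℕ) : ℝ) * (volume (ball (0 : EuclideanSpace ℝ (Fin (2 * n))) 1)).toReal =
      2 * √Real.pi ^ (2 * n) / Real.Gamma n := by
  haveI : Nonempty (Fin (2 * n)) := ⟨⟨0, by omega⟩⟩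
  obtain ⟨k, rfl⟩ : ∃ k, n = k + 1 := ⟨n - 1, by omega⟩
  rw [EuclideanSpace.volume_ball, WN.sphere_vol (by omega)]
  simp only [Fintype.card_fin, ENNReal.ofReal_one, one_pow, one_mul, Nat.add_sub_cancel]
  have h1 : √Real.pi ^ (2 * (k + 1)) = Real.pi ^ (k + 1) := by
    rw [pow_mul, Real.sq_sqrt Real.pi_pos.le]
  have h2 : Real.Gamma (((2 * (k + 1) : ℕ) : ℝ) / 2 + 1) = ((k + 1).factorial : ℝ) := by
    have h3 : (((2 * (k + 1) : ℕ) : ℝ) / 2 + 1) = ((k + 1 : ℕ) : ℝ) + 1 := by
      push_cast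
      ring
    rw [h3]
    exact Real.Gamma_nat_eq_factorial (k + 1)
  rw [h1, h2, ENNReal.toReal_ofReal (by positivity), Nat.factorial_succ]
  push_cast
  have h4 : (k.factorial : ℝ) ≠ 0 := by positivity
  field_simp

end Vale.Agent.P231.CV
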