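import Vale.Agent.P231.H304.Alpha
import Vale.Agent.P231.H304.AA
import Vale.Agent.P231.H304.Radial

/-!
# P231, block H: the fibre integral of the contact volume form
-/

set_option maxSynthPendingDepth 3
set_option linter.unusedSectionVars false
set_option linter.unusedVariables false

open Bundle Manifold Set Filter Module Topology MeasureTheory
open scoped ContDiff Manifold Topology

namespace Vale.Agent.P231.CV

noncomputable section

open Vale.Agent.P234 Vale.Agent.P231 Vale.Agent.P231.Fm Vale.Agent.P231.W Vale.Agent.P231.H775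
  Vale.Agent.P231.WG

variable {E : Type*} [NormedAddCommGroup E] [NormedSpace ℝ E]
  {M : Type*} [MetricSpace M] [ChartedSpace E M]
  [RiemannianBundle (fun x : M => TangentSpace 𝓘(ℝ, E) x)]
  {e : ∀ x : M, TangentSpace 𝓘(ℝ, E) x → M}
  [FiniteDimensional ℝ E] [IsManifold 𝓘(ℝ, E) ∞ M]
  [IsContMDiffRiemannianBundle 𝓘(ℝ, E) ∞ E (fun x : M => TangentSpace 𝓘(ℝ, E) x)]
  {p : M} {R : ℝ}

theorem dom_nhds {z : Eu E × Eu E} (h1 : ‖z.1‖ < R) (h2 : z.2 ≠ 0) :
    ∀ᶠ y : Eu E × Eu E in 𝓝 z, ‖y.1‖ < R ∧ y.2 ≠ 0 := by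
  filter_upwards [(isOpen_dom (E := E) R).mem_nhds ⟨mem_ball_zero_iff.2 h1, h2⟩] with y hy
  exact ⟨mem_ball_zero_iff.1 hy.1, hy.2⟩

theorem contMDiff_ef (he : IsExp e) (p : M) (ξ : Eu E) :
    ContMDiffAt 𝓘(ℝ, Eu E) 𝓘(ℝ, E) ∞ (ef e p) ξ :=
  (smV_dEf he p ξ 0).base

/-- the contact form in the coordinates of the cycle -/
theorem alpha_cc (he : IsExp e) (X : Fr e p R) (v0 : UT E M) {z : Eu E × Eu E}
    (h1 : ‖z.1‖ < R) (h2 : z.2 ≠ 0) :
    (alpha E M).val (cc X v0) z = (X.nr z)⁻¹ • con (AA X) z := by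
  have h3 : con (AA X) z = dx ((AA X z.1 z.2).comp (ContinuousLinearMap.fst ℝ (Eu E) (Eu E))) :=
    pull_dx _ _
  rw [alpha_val (at_cc X v0 h1 h2), h3, ← map_smul]
  congr 1
  refine ContinuousLinearMap.ext fun ζ => ?_
  have h4 : (fun y => foot (cc X v0 y)) =ᶠ[𝓝 z] fun y => ef e p y.1 := by
    filter_upwards [dom_nhds h1 h2] with y hy using foot_cc X v0 hy.1 hy.2
  have h5 : (dF (fun y => foot (cc X v0 y)) z ζ : E) = dEf e p z.1 ζ.1 := by
    rw [dF_congr h4]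
    have h6 := dF_comp (G := ef e p) (j := fun y : Eu E × Eu E => y.1)
      (L := ContinuousLinearMap.fst ℝ (Eu E) (Eu E)) (x := z) (contMDiff_ef he p z.1)
      hasFDerivAt_fst ζ
    exact h6.trans (mfderiv_ef he p z.1 ζ.1)
  rw [acov_apply, h5, cc_eq X v0 h1 h2]
  exact ipr_smul_left _ _ _ _

/-- the norm of the frame vector is smooth -/
theorem contDiffAt_nr (X : Fr e p R) {z : Eu E × Eu E} (h1 : ‖z.1‖ < R) (h2 : z.2 ≠ 0) :
    ContDiffAt ℝ ∞ X.nr z := by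
  have h3 := (X.sm z.1 h1 z.2).norm_sq
  have h4 : ContDiffAt ℝ ∞ (fun z => X.nr z ^ 2) z := h3
  have h5 : ContDiffAt ℝ ∞ (fun z => √(X.nr z ^ 2)) z :=
    h4.sqrt (pow_ne_zero 2 (X.nr_pos h1 h2).ne')
  have h6 : (fun z => √(X.nr z ^ 2)) = X.nr := by
    funext z
    exact Real.sqrt_sq (nm_nonneg _ _)
  rwa [h6] at h5

/-- the contact volume form in the coordinates of the cycle -/
theorem alpha_pow_cc (he : IsExp e) (X : Fr e p R) (v0 : UT E M) (N : ℕ) {z : Eu E × Eu E}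
    (h1 : ‖z.1‖ < R) (h2 : z.2 ≠ 0) :
    (alpha E M * (alpha E M).d ^ N).val (cc X v0) z =
      (X.nr z)⁻¹ ^ (N + 1) • (con (AA X) z * extd (con (AA X)) z ^ N) := by
  have hat := at_cc X v0 h1 h2
  have h3 : (alpha E M).val (cc X v0) =ᶠ[𝓝 z] fun z => (X.nr z)⁻¹ • con (AA X) z := by
    filter_upwards [dom_nhds h1 h2] with y hy using alpha_cc he X v0 hy.1 hy.2
  have h4 : ∀ k, ((alpha E M).d ^ k).val (cc X v0) z =
      (extd (fun z => (X.nr z)⁻¹ • con (AA X) z) z) ^ k := by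
    intro k
    induction k with
    | zero => rw [pow_zero, pow_zero, Form.one_val hat]
    | succ k ih =>
      rw [pow_succ, Form.mul_val, ih, pow_succ, Form.d_val _ hat, extd_congr h3]
  have hc : DifferentiableAt ℝ (con (AA X)) z :=
    (contDiffAt_con (contDiffAt_AA he X h1)).differentiableAt (by simp)
  have hn : DifferentiableAt ℝ (fun z => (X.nr z)⁻¹) z :=
    ((contDiffAt_nr X h1 h2).differentiableAt (by simp)).inv (X.nr_pos h1 h2).ne'
  rw [Form.mul_val, h4, alpha_cc he X v0 h1 h2]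
  exact smul_mul_extd_pow hc hn (Eventually.of_forall fun y => inv_con y) N

/-- the integrand -/
theorem evalForm_slice_alpha (he : IsExp e) (X : Fr e p R) (v0 : UT E M) {N : ℕ}
    (hfr : finrank ℝ (Eu E) = N + 1) (b : Fin (N + 1) → Eu E) (r : Eu E → ℝ)
    {ξ : Eu E} (hξ : ‖ξ‖ < R) {y : Eu E} (hy : y ≠ 0) :
    evalForm (slice b (Q.ps (Q.dR r y) *
      (alpha E M * (alpha E M).d ^ N).val (cc X v0) (ξ, y))) b =
      (X.nr (ξ, y))⁻¹ ^ (N + 1) * fderiv ℝ r y y *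
        ((N.factorial : ℝ) * sgn (N + 1) * (Matrix.of fun i j => AA X ξ (b j) (b i)).det) := by
  have hA : DifferentiableAt ℝ (con (AA X)) (ξ, y) :=
    (contDiffAt_con (z := ((ξ, y) : Eu E × Eu E)) (contDiffAt_AA he X hξ)).differentiableAt
      (by simp)
  rw [alpha_pow_cc he X v0 N (z := (ξ, y)) hξ hy]
  exact evalForm_slice_main hfr hfr hA ((X.nr (ξ, y))⁻¹ ^ (N + 1)) (fderiv ℝ r y) b b

/-- **the fibre integral of the contact volume form** -/
theorem evalForm_th (he : IsExp e) (X : Fr e p R) (v0 : UT E M) {N : ℕ}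
    (hN : finrank ℝ E = N + 1) (b : Basis (Fin (N + 1)) ℝ (Eu E)) {r : Eu E → ℝ} {K : Set (Eu E)}
    (hr : Q.Cut r K) {ξ : Eu E} (hξ : ‖ξ‖ < R) (T : Eu E ≃L[ℝ] Eu E)
    (hT : ∀ η, (fr (ef e p ξ) (T η) : E) = X.B ξ η) :
    evalForm (th X v0 b r (alpha E M * (alpha E M).d ^ N) ξ) b =
      ((N.factorial : ℝ) * sgn (N + 1) * (Matrix.of fun i j => AA X ξ (b j) (b i)).det) *
        (|LinearMap.det ((T : Eu E →L[ℝ] Eu E) : Eu E →ₗ[ℝ] Eu E)|⁻¹ *
          ((finrank ℝ E : ℕ) * (volume (Metric.ball (0 : Eu E) 1)).toReal)) := by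
  have hξ' : ξ ∈ Metric.ball (0 : Eu E) R := mem_ball_zero_iff.2 hξ
  have hfr : finrank ℝ (Eu E) = N + 1 := by
    rw [finrank_euclideanSpace, Fintype.card_fin, hN]
  have h1 := ContinuousLinearMap.integral_comp_comm (evalL (b : Fin (N + 1) → Eu E))
    (Q.integrable_slice volume b hr Metric.isOpen_ball
      (contDiffOn_val X v0 (alpha E M * (alpha E M).d ^ N)) hξ')
  have hpos : 0 < finrank ℝ E := by omega
  have hrad := radial hpos hr T
  rw [← hrad, ← integral_const_mul]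
  refine Eq.trans h1.symm (integral_congr_ae (Eventually.of_forall fun y => ?_))
  change evalForm (slice b (Q.ps (Q.dR r y) *
    (alpha E M * (alpha E M).d ^ N).val (cc X v0) (ξ, y))) b =
      ((N.factorial : ℝ) * sgn (N + 1) * (Matrix.of fun i j => AA X ξ (b j) (b i)).det) *
        (fderiv ℝ r y y * (‖T y‖ ^ finrank ℝ E)⁻¹)
  rcases eq_or_ne y 0 with rfl | hy
  · have h2 : Q.dR r (0 : Eu E) = 0 := hr.dR_near.self_of_nhds
    rw [h2, Q.ps, map_zero, zero_mul, map_zero, Q.evalForm_zero, map_zero, zero_mul, mul_zero]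
  · rw [evalForm_slice_alpha he X v0 hfr b r hξ hy]
    have h3 : X.nr (ξ, y) = ‖T y‖ := by
      change nm (ef e p ξ) (X.B ξ y) = _
      rw [← hT y, nm_fr]
    have h4 : (‖T y‖⁻¹) ^ (N + 1) = (‖T y‖ ^ finrank ℝ E)⁻¹ := by
      rw [inv_pow]
      exact congrArg (fun k : ℕ => (‖T y‖ ^ k)⁻¹) hN.symm
    rw [h3, h4]
    ring

end

end Vale.Agent.P231.CV
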