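import Vale.Agent.P231.H304.Hv
import Vale.Agent.P231.H304.DetJ
import Vale.Agent.P231.WH.Vol

/-!
# P231, block H: the contact volume of the unit tangent bundle
-/

set_option maxSynthPendingDepth 3
set_option linter.unusedSectionVars false
set_option linter.unusedVariables false

open Bundle Manifold Set Filter Module Topology MeasureTheory
open scoped ContDiff Manifold Topology ENNReal

namespace Vale.Agent.P231.CV

noncomputable section

open Vale.Agent.P234 Vale.Agent.P231 Vale.Agent.P231.Fm Vale.Agent.P231.W Vale.Agent.P231.H775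
  Vale.Agent.P231.WG

variable {E : Type*} [NormedAddCommGroup E] [NormedSpace ℝ E]
  {M : Type*} [MetricSpace M] [ChartedSpace E M]
  [RiemannianBundle (fun x : M => TangentSpace 𝓘(ℝ, E) x)]
  {e : ∀ x : M, TangentSpace 𝓘(ℝ, E) x → M}
  [FiniteDimensional ℝ E] [IsManifold 𝓘(ℝ, E) ∞ M]
  [IsContMDiffRiemannianBundle 𝓘(ℝ, E) ∞ E (fun x : M => TangentSpace 𝓘(ℝ, E) x)]
  {p : M} {R : ℝ}

/-- the constant of the sphere -/
theorem ball_const {m N : ℕ} (hm : m = N + 1) :
    (m : ℝ) * (volume (Metric.ball (0 : EuclideanSpace ℝ (Fin m)) 1)).toReal =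
      2 * √Real.pi ^ (N + 1) / Real.Gamma (((N : ℝ) + 1) / 2) := by
  subst hm
  have h := sphere_const N
  push_cast at h ⊢
  exact h

variable [CompactSpace M] [ConnectedSpace M] [IsRiemannianManifold 𝓘(ℝ, E) M]
  [MeasurableSpace M] [BorelSpace M]

/-- **the contact volume of the unit tangent bundle** -/
theorem abs_II_alpha (F : Facts e) {D : ℝ} (hD : 0 < D) (hB : InjGE e D)
    (hdiam : ∀ p q : M, dist p q ≤ D) {N : ℕ} (hN : finrank ℝ E = N + 1)
    (X : Fr e p R) (v0 : UT E M) {r : Eu E → ℝ} {K : Set (Eu E)} (hr : Q.Cut r K) (hDR : D < R)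
    (o : OrthonormalBasis (Fin (N + 1)) ℝ (Eu E)) :
    |II X v0 o.toBasis hr hDR (alpha E M * (alpha E M).d ^ N)| =
      (N.factorial : ℝ) * (2 * √Real.pi ^ (N + 1) / Real.Gamma (((N : ℝ) + 1) / 2)) *
        (Blaschke.riemannianVolume (N + 1) M univ).toReal := by
  set S : ℝ := (finrank ℝ E : ℕ) * (volume (Metric.ball (0 : Eu E) 1)).toReal with hS
  have hS1 : S = 2 * √Real.pi ^ (N + 1) / Real.Gamma (((N : ℝ) + 1) / 2) := ball_const hN
  have hS0 : 0 ≤ S := by positivity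
  set c : Eu E → ℝ := fun ξ => |LinearMap.det (tt X ξ)|⁻¹ with hc
  have h1 : II X v0 o.toBasis hr hDR (alpha E M * (alpha E M).d ^ N) =
      ((N.factorial : ℝ) * sgn (N + 1) * S) *
        ∫ ξ in Metric.ball (0 : Eu E) D,
          (Matrix.of fun i j => AA X ξ (o j) (o i)).det * c ξ := by
    rw [II_apply, ← integral_const_mul]
    refine setIntegral_congr_fun measurableSet_ball fun ξ hξ => ?_
    have h2 : ‖ξ‖ < R := (mem_ball_zero_iff.1 hξ).trans hDR
    obtain ⟨T, hT⟩ := exists_T X h2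
    have h3 := evalForm_th F.isExp X v0 hN o.toBasis hr h2 T hT
    have h4 : c ξ = |LinearMap.det ((T : Eu E →L[ℝ] Eu E) : Eu E →ₗ[ℝ] Eu E)|⁻¹ := by
      rw [hc]
      simp only
      rw [tt_eq X T hT]
      rfl
    rw [h4]
    refine h3.trans ?_
    rw [o.coe_toBasis, ← hS]
    ring
  have h5 := abs_integral F hD hB hDR.le X o (c := c) fun ξ hξ T hT => by
    rw [hc]
    simp only
    rw [tt_eq X T hT]
  rw [h1, abs_mul, h5, abs_mul, abs_mul, abs_sgn, mul_one, Nat.abs_cast, abs_of_nonneg hS0, hS1,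
    (WH.vol_total F hD hB hdiam hN p).2.2]

/-- **block H** -/
theorem block_H (F : Facts e) {D : ℝ} (hD : 0 < D) (hB : InjGE e D)
    (hdiam : ∀ p q : M, dist p q ≤ D) {N : ℕ} (hN : finrank ℝ E = N + 1)
    {p : M} {R : ℝ} (X : Fr e p R) (v0 : UT E M) {r : Eu E → ℝ} {K : Set (Eu E)}
    (hr : Q.Cut r K) (hDR : D < R) (o : OrthonormalBasis (Fin (N + 1)) ℝ (Eu E)) :
    ∃ α : Form (dUT E M), Form.IsDeg 1 α ∧ Form.pull (phi F) (map_phi F) α = pr α + dt ∧
      |II X v0 o.toBasis hr hDR (α * α.d ^ N)| =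
        (N.factorial : ℝ) * (2 * √Real.pi ^ (N + 1) / Real.Gamma (((N : ℝ) + 1) / 2)) *
          (Blaschke.riemannianVolume (N + 1) M univ).toReal :=
  ⟨alpha E M, isDeg_alpha, pull_phi_alpha F, abs_II_alpha F hD hB hdiam hN X v0 hr hDR o⟩

end

end Vale.Agent.P231.CV
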