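import Vale.Agent.P231.H775.SmV

/-!
# P231, block H: the differential of a smooth map applied to a fixed vector is smooth
-/

set_option maxSynthPendingDepth 3
set_option linter.unusedSectionVars false

open Bundle Manifold Set Filter Module
open scoped ContDiff Manifold Topology

namespace Vale.Agent.P231.CV

open Vale.Agent.P234 Vale.Agent.P231 Vale.Agent.P231.H775

noncomputable section

variable {E : Type*} [NormedAddCommGroup E] [NormedSpace ℝ E] [FiniteDimensional ℝ E]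
  {M : Type*} [MetricSpace M] [ChartedSpace E M] [IsManifold 𝓘(ℝ, E) ∞ M]
  [RiemannianBundle (fun x : M => TangentSpace 𝓘(ℝ, E) x)]
  [IsContMDiffRiemannianBundle 𝓘(ℝ, E) ∞ E (fun x : M => TangentSpace 𝓘(ℝ, E) x)]
  {V : Type*} [NormedAddCommGroup V] [NormedSpace ℝ V]

/-- the differential in the chart -/
theorem crd_mfderiv (x₀ : M) {f : V → M} {s : V} (hf : ContMDiffAt 𝓘(ℝ, V) 𝓘(ℝ, E) ∞ f s)
    (hx : f s ∈ (extChartAt 𝓘(ℝ, E) x₀).source) (ζ : V) :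
    crd x₀ (f s) (mfderiv 𝓘(ℝ, V) 𝓘(ℝ, E) f s ζ) =
      fderiv ℝ (fun s => extChartAt 𝓘(ℝ, E) x₀ (f s)) s ζ := by
  have hx' : f s ∈ (chartAt E x₀).source := exm_mem_source hx
  have h1 : (crd x₀ (f s) : TangentSpace 𝓘(ℝ, E) (f s) →L[ℝ] E) =
      mfderiv 𝓘(ℝ, E) 𝓘(ℝ, E) (extChartAt 𝓘(ℝ, E) x₀) (f s) :=
    TangentBundle.continuousLinearMapAt_trivializationAt hx'
  have h2 : MDifferentiableAt 𝓘(ℝ, E) 𝓘(ℝ, E) (extChartAt 𝓘(ℝ, E) x₀) (f s) :=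
    mdifferentiableAt_extChartAt hx'
  have h3 := mfderiv_comp_apply (I := 𝓘(ℝ, V)) (I' := 𝓘(ℝ, E)) (I'' := 𝓘(ℝ, E)) s
    (g := extChartAt 𝓘(ℝ, E) x₀) (f := f) h2 (hf.mdifferentiableAt (by simp)) ζ
  rw [mfderiv_eq_fderiv] at h3
  rw [h1]
  exact h3.symm

/-- the differential of a smooth map applied to a fixed vector is smooth -/
theorem smV_mfderiv {f : V → M} {s : V}
    (hf : ∀ᶠ s' in 𝓝 s, ContMDiffAt 𝓘(ℝ, V) 𝓘(ℝ, E) ∞ f s') (ζ : V) :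
    SmV f (fun s' => mfderiv 𝓘(ℝ, V) 𝓘(ℝ, E) f s' ζ) s := by
  have h0 := hf.self_of_nhds
  rw [smV_iff (f s) (mem_extChartAt_source (f s))]
  refine ⟨h0, ?_⟩
  have h1 : ContDiffAt ℝ ∞ (fun s' => extChartAt 𝓘(ℝ, E) (f s) (f s')) s := by
    have h2 : ContMDiffAt 𝓘(ℝ, V) 𝓘(ℝ, E) ∞ (fun s' => extChartAt 𝓘(ℝ, E) (f s) (f s')) s :=
      (contMDiffAt_extChartAt (I := 𝓘(ℝ, E)) (x := f s)).comp s h0
    exact h2.contDiffAt
  have h3 : ContDiffAt ℝ ∞ (fun s' =>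
      fderiv ℝ (fun s' => extChartAt 𝓘(ℝ, E) (f s) (f s')) s' ζ) s :=
    (h1.fderiv_right (m := ∞) (by simp)).clm_apply contDiffAt_const
  refine h3.congr_of_eventuallyEq ?_
  filter_upwards [hf, h0.continuousAt.eventually
    ((isOpen_extChartAt_source (f s)).mem_nhds (mem_extChartAt_source (I := 𝓘(ℝ, E)) (f s)))]
    with s' h4 h5
  exact crd_mfderiv (f s) h4 h5 ζ

end

end Vale.Agent.P231.CV
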